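import Crest.Agent.X212.Bb31.Stm
import Crest.Agent.X212.Flo26.More
import Crest.Agent.X212.Line51.Glue

/-!
# X212/Hel40/Defs (helper40): the helicoid tower

* `Pre`, `Hi`, `SmH` : the smooth hierarchy in plateau form (input);
* `Clm`, `TB` : parts of the tower (the tower itself is in `Hel40/Twr`);
* `St` : the state of the induction;  the leaf statements.
-/

set_option autoImplicit false
set_option linter.unusedSectionVars false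

open Set Filter Topology Function
open scoped ContDiff Manifold
open Crest.Agent.R208.F Crest.Agent.X212.Dr59 Crest.Agent.X212.Int54 Crest.Agent.X212.Cyl58
open Crest.Agent.X212.Sep15 (EE IR CM Box slab px Rg)
open Crest.Agent.X212.Bb31 (Fm Cy Df Pos)
open Crest.Agent.X212.Flo26 (SmV fl)

noncomputable section

namespace Crest.Agent.X212.Hel40

/-- the model of `ℂ × ℝ` -/
abbrev ICR : ModelWithCorners ℝ (ℂ × ℝ) (ModelProd ℂ ℝ) := 𝓘(ℝ, ℂ).prod 𝓘(ℝ, ℝ)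

/-- vector fields -/
abbrev Vf (Y : CM 3) : Type := (y : Y) → TangentSpace (𝓡 3) y

/-- logarithmic derivative of a circle map; `Line51.ang I Φ y = io (dl I Φ y)` by `rfl` -/
def dl {E H M : Type*} [NormedAddCommGroup E] [NormedSpace ℝ E] [FiniteDimensional ℝ E]
    [TopologicalSpace H] (I : ModelWithCorners ℝ E H) [TopologicalSpace M] [ChartedSpace H M]
    (Φ : M → Circle) (y : M) : Module.Dual ℝ E := Line51.tl I (Line51.sc Φ) y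

/-- angle `π + 2 arctan s` : a diffeomorphism of `ℝ` onto the circle minus `1` -/
def cay (s : ℝ) : Circle := Circle.exp (Real.pi + 2 * Real.arctan s)

/-- `0` for `r ≤ -ε`, `1` for `r ≥ ε` -/
def stp (ε r : ℝ) : ℝ := Real.smoothTransition ((r / ε + 1) / 2)

open Classical in
/-- the circle valued step across the annulus `A` -/
def del {R : Type*} (A : ℂ → R) (ε : ℝ) (x : R) : Circle :=
  if h : ∃ z, A z = x then Circle.exp (2 * Real.pi * stp ε h.choose.im) else 1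

/-- the step across the lines `im ∈ ℤ` -/
def dz (ε : ℝ) (z : ℂ) : Circle := Circle.exp (2 * Real.pi * stp ε (z.im - round z.im))

/-- the core of an annulus chart -/
abbrev core {R : Type*} (A : ℂ → R) : Set R := range fun t : ℝ => A t

/-- `u` has a continuous logarithm on `S` -/
def Lifts {X : Type*} [TopologicalSpace X] (u : X → Circle) (S : Set X) : Prop :=
  ∃ l : X → ℝ, ContinuousOn l S ∧ ∀ x ∈ S, u x = Circle.exp (l x)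

/-- `a` is a loop of period one on which `u` has degree one -/
def Dual {X : Type*} [TopologicalSpace X] (u : X → Circle) (a : ℝ → X) : Prop :=
  Continuous a ∧ (∀ t, a (t + 1) = a t) ∧ ∃ l : ℝ → ℝ, Continuous l ∧
    (∀ t, u (a t) = Circle.exp (l t)) ∧ ∀ t, l (t + 1) = l t + 2 * Real.pi

/-- the open cross -/
def Xo (δ : ℝ) : Set ℂ := {z | (∃ n : ℤ, |z.re - n| < δ) ∨ ∃ n : ℤ, |z.im - n| < δ}

/-- the closed cross -/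
def Xc (δ : ℝ) : Set ℂ := {z | (∃ n : ℤ, |z.re - n| ≤ δ) ∨ ∃ n : ℤ, |z.im - n| ≤ δ}

/-- congruence modulo the Gaussian integers -/
def Lat (z w : ℂ) : Prop := ∃ m n : ℤ, w = z + m + n * Complex.I

/-- squeeze of the line into `(-δ, δ)` -/
structure Sq (δ : ℝ) (σ : ℝ → ℝ) : Prop where
  sm : ContDiff ℝ ∞ σ
  pos : ∀ r, 0 < deriv σ r
  lt : ∀ r, |σ r| < δ
  id : ∀ r, |r| ≤ δ / 2 → σ r = r

/-- the horizontal annulus of a handle chart -/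
def hA {R : Type*} (e : ℂ → R) (σ : ℝ → ℝ) (z : ℂ) : R := e (z.re + σ z.im * Complex.I)

section surf

variable {R : CM 2}

/-- smooth circle maps -/
abbrev SC {n : ℕ} {Y : CM n} (u : Y → Circle) : Prop := ContMDiff (𝓡 n) (𝓡 1) ∞ u

/-- annulus chart without orientation -/
def An' (A : ℂ → R) : Prop :=
  IsLocalDiffeomorph 𝓘(ℝ, ℂ) (𝓡 2) ∞ A ∧ ∀ z w, A z = A w ↔ ∃ n : ℤ, w = z + n

/-- homotopic circle maps -/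
def Hm (u u' : R → Circle) : Prop :=
  ∃ l : R → ℝ, ContMDiff (𝓡 2) 𝓘(ℝ, ℝ) ∞ l ∧ ∀ x, u x = u' x * Circle.exp (l x)

/-- handle chart on the cross of width `δ` -/
structure Hdl (e : ℂ → R) (δ : ℝ) : Prop where
  pos : 0 < δ
  lt : δ < 1 / 2
  ld : ∀ z ∈ Xo δ, IsLocalDiffeomorphAt 𝓘(ℝ, ℂ) (𝓡 2) ∞ e z
  eq : ∀ z ∈ Xo δ, ∀ w ∈ Xo δ, e z = e w ↔ Lat z w

end surf

variable {Y Y' : CM 3} {R : CM 2}

/-- rate of a circle map along a field -/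
def rt (Φ : Y → Circle) (v : Vf Y) (y : Y) : ℝ := dl (𝓡 3) Φ y (v y)

/-- derivative of a function along a field -/
def dr (f : Y → ℝ) (v : Vf Y) (y : Y) : ℝ := mf (𝓡 3) 𝓘(ℝ, ℝ) f y (v y)

/-! ### the hierarchy -/

/-- one stage: colours `tp`, `tm` of the plateau `M`, cutting function `φ`, new plateau `M'` -/
structure Pre (v : Vf Y) (M M' : Set Y) where
  O : Set Y
  tp : Y → ℝ
  tm : Y → ℝ
  r : ℝ
  φ : Y → Circle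
  op : IsOpen O
  sp : ContMDiffOn (𝓡 3) 𝓘(ℝ, ℝ) ∞ tp O
  sm : ContMDiffOn (𝓡 3) 𝓘(ℝ, ℝ) ∞ tm O
  p0 : ∀ y ∈ O, 0 ≤ tp y
  m0 : ∀ y ∈ O, tm y ≤ 0
  pv : ∀ y ∈ O, 0 ≤ dr tp v y
  mv : ∀ y ∈ O, 0 ≤ dr tm v y
  ly : ∀ y ∈ O, tp y ≤ r → -r ≤ tm y → y ∉ M → 0 < dr tp v y + dr tm v y
  meq : ∀ y, y ∈ M ↔ y ∈ O ∧ tp y = 0 ∧ tm y = 0
  rpos : 0 < r
  cpt : IsCompact {y | y ∈ O ∧ tp y ≤ r ∧ -r ≤ tm y}
  sφ : ContMDiffOn (𝓡 3) (𝓡 1) ∞ φ O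
  φv : ∀ y ∈ O, 0 ≤ rt φ v y
  φs : ∀ y ∈ M, y ∉ M' → 0 < rt φ v y
  meq' : ∀ y, y ∈ M' ↔ y ∈ M ∧ φ y = 1

namespace Pre

variable {v : Vf Y} {M M' : Set Y} (S : Pre v M M')

/-- the compact neighbourhoods of the plateau -/
def B (ρ : ℝ) : Set Y := {y | y ∈ S.O ∧ S.tp y ≤ ρ ∧ -ρ ≤ S.tm y}

/-- lifted points whose orbit misses the sheet `0` of the new plateau -/
def Gam : Set (Y × ℝ) := {q | q.1 ∈ S.O ∧ S.φ q.1 = Circle.exp q.2 ∧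
  ((0 < S.tp q.1 ∧ q.2 < 0) ∨ (S.tm q.1 < 0 ∧ 0 < q.2) ∨ (0 < S.tp q.1 ∧ S.tm q.1 < 0))}

/-- points of `Gam` over `W'` are joined over `W` to a compact set of free points -/
def Jn (W W' : Set Y) : Prop := ∃ (D : ℝ) (Q : Set Y), IsCompact Q ∧
  (∀ y ∈ Q, y ∈ S.O ∧ y ∈ W ∧ 0 < S.tp y ∧ S.tm y < 0) ∧ ∀ q ∈ S.Gam, q.1 ∈ W' →
    ∃ q' : Y × ℝ, q'.1 ∈ Q ∧ JoinedIn {p | p ∈ S.Gam ∧ p.1 ∈ W ∧ |p.2 - q.2| ≤ D} q q'

/-- conditioned: `false` = in the fixed neighbourhood, `true` = in every neighbourhood -/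
def Cd : Bool → Prop
  | false => S.Jn (S.B S.r) (S.B S.r)
  | true => ∀ W ∈ 𝓝ˢ M, ∃ W' ∈ 𝓝ˢ M, S.Jn W W'

end Pre

/-- a chain of `n` stages from `M` to `N` -/
def Ch (v : Vf Y) (t : Bool) : ℕ → Set Y → Set Y → Prop
  | 0, M, N => M = N
  | n + 1, M, N => ∃ (M' : Set Y) (S : Pre v M M'), S.Cd t ∧ Ch v t n M' N

/-- a hierarchy of length `n` -/
abbrev Hi (v : Vf Y) (t : Bool) (n : ℕ) (M : Set Y) : Prop := Ch v t n M ∅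

/-- field, circle map and plateau -/
structure Bas (o : Fm 3 Y) (v : Vf Y) (Φ : Y → Circle) (M : Set Y) : Prop where
  ori : Ori (𝓡 3) o
  smv : SmV (𝓡 3) v
  smΦ : SC Φ
  cl : IsClosed M
  nn : ∀ y, 0 ≤ rt Φ v y
  pos : ∀ y ∉ M, 0 < rt Φ v y
  one : ∀ y ∈ M, Φ y = 1

/-- the middle surface of the free columns -/
def PP (Φ : Y → Circle) (M : Set Y) : Set Y := {y | Φ y = 1 ∧ y ∉ M}

/-- the columns over `K` -/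
def col (v : Vf Y) (Φ : Y → Circle) (K : Set Y) : Set Y :=
  {y | ∃ T : ℝ, fl v T y ∈ K ∧ ∀ t ∈ uIcc 0 T, (Φ (fl v t y) : ℂ) ≠ -1}

/-- the middle of the box -/
def Mid (Φ : Y → Circle) : Set Y := {y | (Φ y : ℂ).re < 0}

/-- genus certificate -/
structure Cert (v : Vf Y) (Φ : Y → Circle) (M V : Set Y) (w : Y → Circle) (L : Set Y) : Prop where
  op : ∃ N, IsOpen N ∧ V = PP Φ M ∩ N
  conn : IsPreconnected V
  cpt : IsCompact L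
  sub : L ⊆ V
  cont : ContinuousOn w V
  off : ∀ y ∈ V, y ∉ L → w y = 1
  nl : ¬ Lifts w V
  ret : ∀ y ∈ V, ∀ T > (0 : ℝ), fl v T y ∈ V → ∃ t ∈ Ioo 0 T, Φ (fl v t y) = 1

/-- **smooth hierarchy** (the input) -/
structure SmH (o : Fm 3 Y) (Φ : Y → Circle) : Prop where
  ex : ∃ (v : Vf Y) (M : Set Y) (n : ℕ) (V : Set Y) (w : Y → Circle) (L : Set Y),
    Bas o v Φ M ∧ IsPreconnected (PP Φ M) ∧ Hi v false n M ∧ Cert v Φ M V w L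

/-! ### the tower -/

/-- one column from the top of the box `b` to its bottom, parametrised by the old angle -/
structure Clm (b : R × ℝ → Y) (U : Set Y) (Φ : Y → Circle) (D : Set ℂ) (c : ℂ × ℝ → Y)
    (e₁ e₂ : ℂ → R) : Prop where
  op : IsOpen D
  ne : D.Nonempty
  ld : ∀ p : ℂ × ℝ, p.1 ∈ D → |p.2| < Real.pi → IsLocalDiffeomorphAt ICR (𝓡 3) ∞ c p
  inj : InjOn c {p | p.1 ∈ D ∧ |p.2| < Real.pi}
  lo : ∀ z ∈ D, ∀ θ ∈ Ioo (-Real.pi) 0, c (z, θ) = b (e₁ z, Real.tan ((θ + Real.pi) / 2))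
  hi : ∀ z ∈ D, ∀ θ ∈ Ioo 0 Real.pi, c (z, θ) = b (e₂ z, Real.tan ((θ - Real.pi) / 2))
  mid : ∀ z ∈ D, c (z, 0) ∉ range b
  mem : ∀ p : ℂ × ℝ, p.1 ∈ D → |p.2| < Real.pi → c p ∈ U
  pos : ∀ p : ℂ × ℝ, p.1 ∈ D → |p.2| < Real.pi →
    0 < dl (𝓡 3) Φ (c p) (mf ICR (𝓡 3) c p (0, 1))

/-- the data of the last level: a mapping torus, reglued from `R × S¹` -/
structure TB (o : Fm 3 Y) (Φ : Y → Circle) {Y₀ : CM 3} (oR : Fm 2 R)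
    (f : (R × Circle) ≃ₘ^∞⟮(𝓡 2).prod (𝓡 1), 𝓡 3⟯ Y₀) {b₀ : R × ℝ → Y₀} {b : R × ℝ → Y} {g : Df R}
    (G : Rg b₀ g b) : Prop where
  ori : Ori (𝓡 3) o
  oriR : Ori (𝓡 2) oR
  conn : IsConnected (univ : Set R)
  cy : Cy oR o b
  pos : Pos oR g
  sm : SC Φ
  box₀ : ∀ p, b₀ p = f (p.1, cay p.2)
  box : ∀ p, Φ (b p) = cay p.2
  off : ∀ x (θ : Circle), (θ : ℂ) ≠ -1 → Φ (G.φ (f (x, θ))) = θ

/-! ### the state -/

/-- `∂ₛ b` is a positive multiple of `v` -/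
def Vert (v : Vf Y) (b : R × ℝ → Y) : Prop :=
  ∀ p, ∃ f > (0 : ℝ), mf (IR 2) (𝓡 3) b p (0, 1) = f • (v (b p) : EE 3)

/-- the box of a circle map -/
structure Bx (o : Fm 3 Y) (v : Vf Y) (Φ : Y → Circle) (oR : Fm 2 R) (b : R × ℝ → Y) : Prop where
  ori : Ori (𝓡 2) oR
  box : Box b
  cy : Cy oR o b
  rg : range b = {y | Φ y ≠ 1}
  ang : ∀ p, Φ (b p) = cay p.2
  vert : Vert v b

/-- the column of a handle, over the angles `(-a, a)` -/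
structure Col (v : Vf Y) (Φ : Y → Circle) (δ a : ℝ) (E : ℂ × ℝ → Y) : Prop where
  pos : 0 < δ
  lt : δ < 1 / 2
  ld : ∀ p : ℂ × ℝ, p.1 ∈ Xo δ → |p.2| < a → IsLocalDiffeomorphAt ICR (𝓡 3) ∞ E p
  eq : ∀ p q : ℂ × ℝ, p.1 ∈ Xo δ → |p.2| < a → q.1 ∈ Xo δ → |q.2| < a →
    (E p = E q ↔ p.2 = q.2 ∧ Lat p.1 q.1)
  ang : ∀ p : ℂ × ℝ, p.1 ∈ Xo δ → |p.2| < a → Φ (E p) = Circle.exp p.2
  vert : ∀ p : ℂ × ℝ, p.1 ∈ Xo δ → |p.2| < a →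
    ∃ f > (0 : ℝ), mf ICR (𝓡 3) E p (0, 1) = f • (v (E p) : EE 3)

/-- the state -/
structure St (o : Fm 3 Y) (v : Vf Y) (Φ : Y → Circle) (M U K : Set Y) (δ a : ℝ)
    (E : ℂ × ℝ → Y) : Prop where
  bas : Bas o v Φ M
  cpt : IsCompact K
  sub : K ⊆ PP Φ M
  conn : IsPreconnected (PP Φ M)
  conn' : IsPreconnected (PP Φ M \ K)
  ctl : U ⊆ Mid Φ ∪ col v Φ K
  hcol : Col v Φ δ a E
  free : ∀ z ∈ Xo δ, ∀ n : ℤ, |2 * Real.pi * n| < a → E (z, 2 * Real.pi * n) ∈ PP Φ M \ K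

/-- the feet of the free columns: `σ = 1` below the middle level (`s > 0`), `σ = -1` above -/
structure Ft (v : Vf Y) (Φ : Y → Circle) (M : Set Y) (b : R × ℝ → Y) (σ : ℝ) (F : Set R)
    (f : Y → R) (π : R → Y) : Prop where
  op : IsOpen F
  opc : IsOpen (col v Φ (PP Φ M))
  sm : ContMDiffOn (𝓡 3) (𝓡 2) ∞ f (col v Φ (PP Φ M))
  box : ∀ x s, 0 < σ * s → f (b (x, s)) = x
  flow : ∀ y ∈ col v Φ (PP Φ M), ∀ T : ℝ, (∀ t ∈ uIcc 0 T, (Φ (fl v t y) : ℂ) ≠ -1) →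
    fl v T y ∈ col v Φ (PP Φ M) ∧ f (fl v T y) = f y
  maps : MapsTo f (col v Φ (PP Φ M)) F
  cont : ContinuousOn π F
  maps' : MapsTo π F (PP Φ M)
  left : ∀ x ∈ F, f (π x) = x
  right : ∀ y ∈ PP Φ M, π (f y) = y
  colK : ∀ K ⊆ PP Φ M, ∀ y, y ∈ col v Φ K ↔ y ∈ col v Φ (PP Φ M) ∧ π (f y) ∈ K
  mem : ∀ x s, 0 < σ * s → (b (x, s) ∈ col v Φ (PP Φ M) ↔ x ∈ F)
  lim : ∀ W ∈ 𝓝ˢ M, ∃ T : ℝ, ∀ x ∉ F, ∀ s, T ≤ σ * s → b (x, s) ∈ W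

/-! ### leaves: three-dimensional -/

/-- TRK: a curve tangent to `v` is a reparametrised orbit -/
def TrkStmt : Prop := ∀ (Y : CM 3) (v : Vf Y) (γ : ℝ → Y) (a b : ℝ), SmV (𝓡 3) v →
  (∀ t ∈ Ioo a b, ContMDiffAt 𝓘(ℝ, ℝ) (𝓡 3) ∞ γ t ∧ v (γ t) ≠ 0 ∧
    ∃ f > (0 : ℝ), mf 𝓘(ℝ, ℝ) (𝓡 3) γ t 1 = f • (v (γ t) : EE 3)) →
  ∃ τ : ℝ → ℝ, ContinuousOn τ (Ioo a b) ∧ StrictMonoOn τ (Ioo a b) ∧
    ∀ s ∈ Ioo a b, ∀ t ∈ Ioo a b, fl v (τ t - τ s) (γ s) = γ t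

/-- BOX -/
def BoxStmt : Prop := ∀ (Y : CM 3) (o : Fm 3 Y) (v : Vf Y) (Φ : Y → Circle), Ori (𝓡 3) o →
  SmV (𝓡 3) v → SC Φ → (∀ y, Φ y ≠ 1 → 0 < rt Φ v y) →
  ∃ (R : CM 2) (oR : Fm 2 R) (b : R × ℝ → Y), Bx o v Φ oR b

/-- FOOT -/
def FootStmt : Prop := ∀ (Y : CM 3) (R : CM 2) (o : Fm 3 Y) (v : Vf Y) (Φ : Y → Circle) (M : Set Y)
  (oR : Fm 2 R) (b : R × ℝ → Y) (σ : ℝ), Bas o v Φ M → Bx o v Φ oR b → σ = 1 ∨ σ = -1 →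
  Nonempty R →
  ∃ F f π, Ft v Φ M b σ F f π

/-- SLAB: orbit segments near the level `1` that start near `M` stay near `M` -/
def SlabStmt : Prop := ∀ (Y : CM 3) (o : Fm 3 Y) (v : Vf Y) (Φ : Y → Circle) (M : Set Y),
  Bas o v Φ M → ∀ W ∈ 𝓝ˢ M, ∀ W' ∈ 𝓝ˢ M, closure W' ⊆ interior W → ∃ η > (0 : ℝ), ∀ y ∈ W',
    ∀ T : ℝ, (∀ t ∈ uIcc 0 T, 1 - η ≤ (Φ (fl v t y) : ℂ).re) → fl v T y ∈ W

/-- CONN: the fibre is connected -/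
def ConnStmt : Prop := ∀ (Y : CM 3) (R : CM 2) (o : Fm 3 Y) (v : Vf Y) (Φ : Y → Circle)
  (M M' : Set Y) (oR : Fm 2 R) (b : R × ℝ → Y) (S : Pre v M M'), Bas o v Φ M → Bx o v Φ oR b →
  S.Cd true → IsConnected (PP Φ M) → IsConnected (univ : Set R)

/-- REGL: orientation, field, circle map and columns of the reglued manifold -/
def ReglStmt : Prop := ∀ (Y Y' : CM 3) (R : CM 2) (b : R × ℝ → Y) (b' : R × ℝ → Y') (h : Df R)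
  (G : Rg b h b') (o : Fm 3 Y) (oR : Fm 2 R) (v : Vf Y) (Φ : Y → Circle) (M : Set Y),
  Bas o v Φ M → Bx o v Φ oR b → Pos oR h →
  ∃ (o' : Fm 3 Y') (v' : Vf Y') (Φ' : Y' → Circle), Bas o' v' Φ' (G.φ '' M) ∧ Bx o' v' Φ' oR b' ∧
    SameOn (pm (𝓡 3) (𝓡 3) G.φ o') o G.φ.source ∧ (∀ y ∈ G.φ.source, Φ' (G.φ y) = Φ y) ∧
    (∀ y ∈ G.φ.source, ∃ g > (0 : ℝ), mf (𝓡 3) (𝓡 3) G.φ y (v y) = g • (v' (G.φ y) : EE 3)) ∧
    (∀ y ∉ slab b (Icc (-1) 1), (v' (G.φ y) : EE 3) = mf (𝓡 3) (𝓡 3) G.φ y (v y)) ∧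
    PP Φ' (G.φ '' M) = G.φ '' PP Φ M ∧
    ∀ K ⊆ PP Φ M, col v' Φ' (G.φ '' K) = G.φ '' col v Φ K

/-- TRANS: the hierarchy is a germ along the plateau -/
def TransStmt : Prop := ∀ (Y Y' : CM 3) (v : Vf Y) (v' : Vf Y')
  (ι : PartialDiffeomorph (𝓡 3) (𝓡 3) Y Y' ∞) (W : Set Y), IsOpen W → W ⊆ ι.source →
  (∀ y ∈ W, (v' (ι y) : EE 3) = mf (𝓡 3) (𝓡 3) ι y (v y)) →
  (∀ (M M' : Set Y) (S : Pre v M M'), M ⊆ W → S.Cd true → ∃ S' : Pre v' (ι '' M) (ι '' M'),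
    S'.Cd true ∧ ∀ᶠ y in 𝓝ˢ M, S'.φ (ι y) = S.φ y) ∧
  ∀ (n : ℕ) (M : Set Y), M ⊆ W → Hi v true n M → Hi v' true n (ι '' M)

/-- PUSH: the joining paths are pushed towards the plateau -/
def PushStmt : Prop := ∀ (Y : CM 3) (v : Vf Y) (M M' : Set Y) (S : Pre v M M'), SmV (𝓡 3) v →
  S.Cd false → S.Cd true

/-- PHIHAT: extension of the cutting function over the cut manifold -/
def HatStmt : Prop := ∀ (Y : CM 3) (R : CM 2) (o : Fm 3 Y) (v : Vf Y) (Φ : Y → Circle)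
  (M M' : Set Y) (oR : Fm 2 R) (b : R × ℝ → Y) (S : Pre v M M') (F : Set R) (f : Y → R)
  (π : R → Y) (C : Set R) (d : R → Circle), Bas o v Φ M → Bx o v Φ oR b → Ft v Φ M b 1 F f π →
  IsClosed C → (C ⊆ F ∧ IsPreconnected (F \ C)) ∨ (∀ y, S.φ y = 1) → SC d →
  (∀ᶠ x in 𝓝ˢ Fᶜ, d x = 1) →
  ∃ (ψ : Y → Circle) (w um : R → Circle), SC w ∧ SC um ∧ (∀ᶠ x in 𝓝ˢ C, w x = 1) ∧
    ContMDiffOn (𝓡 3) (𝓡 1) ∞ ψ {y | (Φ y : ℂ) ≠ -1} ∧ (∀ᶠ y in 𝓝ˢ M, ψ y = S.φ y) ∧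
    (∀ x, ∀ s ∈ Ioc (0 : ℝ) 7, ψ (b (x, s)) = d x * w x ∧ ψ (b (x, -s)) = um x) ∧
    ∀ᶠ x in 𝓝ˢ C, ∀ y ∈ col v Φ (PP Φ M), f y = x → ψ y = d x

/-- BAND: the new state -/
def BandStmt : Prop := ∀ (Y : CM 3) (R : CM 2) (o : Fm 3 Y) (v : Vf Y) (Φ : Y → Circle)
  (M M' K U' : Set Y) (oR : Fm 2 R) (b : R × ℝ → Y) (S : Pre v M M') (ψ : Y → Circle)
  (u : R → Circle) (a : ℝ → R) (e : ℂ → R) (δ : ℝ), Bas o v Φ M → Bx o v Φ oR b → S.Cd true →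
  IsCompact K → K ⊆ PP Φ M → IsPreconnected (PP Φ M) → IsPreconnected (PP Φ M \ K) →
  IsPreconnected (univ : Set R) → SC ψ → (∀ᶠ y in 𝓝ˢ M, ψ y = S.φ y) →
  (∀ x, ∀ s ∈ Icc (4 : ℝ) 6, ψ (b (x, s)) = u x) →
  (∀ x, b (x, 5) ∈ col v Φ K → ∀ᶠ x' in 𝓝 x, u x' = 1) → Dual u a →
  (∀ t, b (a t, 5) ∈ col v Φ (PP Φ M \ K)) → Hdl e δ →
  (∀ z ∈ Xo δ, u (e z) = 1 ∧ b (e z, 5) ∉ col v Φ K) →
  U' ⊆ slab b (Icc (-4) 4) ∪ col v Φ K →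
  ∃ k₀ : ℕ, ∀ k ≥ k₀, ∃ K' E', St o v (ψ * Φ ^ k) M' U' K' δ 10 E'

/-- BASE: a circle map without plateau is a mapping torus -/
def BaseStmt : Prop := ∀ (Y : CM 3) (R : CM 2) (o : Fm 3 Y) (v : Vf Y) (Φ : Y → Circle)
  (oR : Fm 2 R) (b : R × ℝ → Y), Bas o v Φ ∅ → Bx o v Φ oR b → IsConnected (univ : Set R) →
  ∃ (Y₀ : CM 3) (f : (R × Circle) ≃ₘ^∞⟮(𝓡 2).prod (𝓡 1), 𝓡 3⟯ Y₀) (b₀ : R × ℝ → Y₀) (g : Df R)
    (G : Rg b₀ g b), TB o Φ oR f G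

/-- SHEET: the sheets of a column are handle charts of the fibre -/
def SheetStmt : Prop := ∀ (Y : CM 3) (R : CM 2) (o : Fm 3 Y) (v : Vf Y) (Φ : Y → Circle)
  (oR : Fm 2 R) (b : R × ℝ → Y) (δ a : ℝ) (E : ℂ × ℝ → Y) (n : ℤ), SmV (𝓡 3) v → SC Φ →
  Bx o v Φ oR b → Col v Φ δ a E → |(2 * n + 1) * Real.pi| < a →
  ∃ e : ℂ → R, Hdl e δ ∧ ∀ z ∈ Xo δ, ∀ s : ℝ, |(2 * n + 1) * Real.pi + 2 * Real.arctan s| < a →
    b (e z, s) = E (z, (2 * n + 1) * Real.pi + 2 * Real.arctan s)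

/-- GENUS: a handle column from the certificate -/
def GenusStmt : Prop := ∀ (Y : CM 3) (o : Fm 3 Y) (v : Vf Y) (Φ : Y → Circle) (M V : Set Y)
  (w : Y → Circle) (L : Set Y), Bas o v Φ M → Cert v Φ M V w L →
  ∃ δ E, Col v Φ δ 4 E ∧ ∀ z ∈ Xo δ, E (z, 0) ∈ PP Φ M

/-! ### leaves: surfaces -/

/-- EXT: no obstruction on a connected complement -/
def ExtStmt : Prop := ∀ (R : CM 2) (oR : Fm 2 R) (W N : Set R) (u : R → Circle), Ori (𝓡 2) oR →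
  IsOpen W → IsPreconnected W → IsOpen N → Wᶜ ⊆ N → ContMDiffOn (𝓡 2) (𝓡 1) ∞ u N →
  ∃ u' : R → Circle, SC u' ∧ ∀ᶠ x in 𝓝ˢ Wᶜ, u' x = u x

/-- DEL: the step across an annulus -/
def DelStmt : Prop := ∀ (R : CM 2) (A : ℂ → R) (ε : ℝ), An' A → 0 < ε →
  SC (del A ε) ∧ (∀ z, del A ε (A z) = Circle.exp (2 * Real.pi * stp ε z.im)) ∧
  IsCompact (A '' {z | |z.im| ≤ ε}) ∧ (∀ x ∉ A '' {z | |z.im| ≤ ε}, del A ε x = 1) ∧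
  (∀ ε' > (0 : ℝ), Hm (del A ε) (del A ε')) ∧
  ∀ V, IsOpen V → IsPreconnected V → A '' {z | |z.im| ≤ ε} ⊆ V → ¬ Lifts (del A ε) V →
    IsPreconnected (V \ core A)

/-- LEV: a circle map is a product of steps across disjoint annuli -/
def LevStmt : Prop := ∀ (R : CM 2) (oR : Fm 2 R) (W : Set R) (w : R → Circle), Ori (𝓡 2) oR →
  IsOpen W → SC w → (∀ x ∉ W, w x = 1) →
  ∃ (m : ℕ) (A : Fin m → ℂ → R), (∀ i, An' (A i) ∧ range (A i) ⊆ W) ∧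
    (∀ i j, i ≠ j → Disjoint (range (A i)) (range (A j))) ∧ Hm w (∏ i, del (A i) 1)

/-- BS: band sum of the positive sides -/
def BsStmt : Prop := ∀ (R : CM 2) (V : Set R) (A C : ℂ → R), An' A → An' C → IsOpen V →
  IsPreconnected V → Disjoint (range A) (range C) → Disjoint V (core A ∪ core C) →
  (∀ z : ℂ, 0 < z.im → A z ∈ V ∧ C z ∈ V) →
  ∃ A' : ℂ → R, An' A' ∧ range A' ⊆ V ∧ Hm (del A 1 * del C 1) (del A' 1)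

/-- HD 1: topology of a handle chart -/
def Hd1Stmt : Prop := ∀ (R : CM 2) (e : ℂ → R) (δ δ' : ℝ), Hdl e δ → 0 < δ' → δ' < δ →
  IsOpen (e '' Xo δ) ∧ IsCompact (e '' Xc δ') ∧ IsPreconnected (e '' Xo δ \ e '' Xc δ') ∧
  (∃ σ, Sq δ' σ) ∧ ∀ σ, Sq δ' σ → An' (hA e σ) ∧ range (hA e σ) ⊆ e '' Xc δ' ∧
    IsPreconnected (e '' Xo δ \ core (hA e σ)) ∧ ∀ ε, 0 < ε → ε ≤ δ' / 2 →
      (∀ z ∈ Xo δ, del (hA e σ) ε (e z) = dz ε z) ∧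
      Dual (del (hA e σ) ε) fun t : ℝ => e (t * Complex.I)

/-- HD 3: a small disc in the collar of the cross -/
def Hd3Stmt : Prop := ∀ δ δ' : ℝ, 0 < δ' → δ' < δ → δ < 1 / 2 → ∃ (z₀ : ℂ) (r : ℝ), 0 < r ∧
  Metric.closedBall z₀ r ⊆ Xo δ \ Xc δ' ∧ ∀ (R : CM 2) (e : ℂ → R), Hdl e δ →
    IsPreconnected (e '' Xo δ \ e '' Metric.closedBall z₀ r) ∧
    IsPreconnected (e '' Xo δ \ e '' (Xc δ' ∪ Metric.closedBall z₀ r))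

end Crest.Agent.X212.Hel40
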