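import Crest.Agent.X212.Hel40.Bas

/-!
# X212/Hel40/Ang (helper40): angles along orbits, columns, covers of a surface
-/

set_option autoImplicit false
set_option linter.unusedSectionVars false

open Set Filter Topology Function Real
open scoped ContDiff Manifold
open Crest.Agent.X212.Dr59 Crest.Agent.X212.Cyl58
open Crest.Agent.X212.Sep15 (EE IR CM Box slab px Rg)
open Crest.Agent.X212.Bb31 (Fm)
open Crest.Agent.X212.Flo26 (SmV fl)

noncomputable section

namespace Crest.Agent.X212.Hel40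

/-! ### the circle -/

theorem exp_inj {a b : ℝ} (h : Circle.exp a = Circle.exp b) (hab : |a - b| < 2 * π) : a = b := by
  obtain ⟨n, hn⟩ := Circle.exp_eq_exp.1 h
  have h1 : |(n : ℝ)| < 1 := by
    rw [hn, add_sub_cancel_left, abs_mul, abs_of_pos two_pi_pos] at hab
    nlinarith [two_pi_pos]
  have h2 : n = 0 := Int.abs_lt_one_iff.1 (by exact_mod_cast h1)
  simpa [h2] using hn

theorem exp_ne_one {a : ℝ} (h0 : a ≠ 0) (h : |a| < 2 * π) : Circle.exp a ≠ 1 := fun e =>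
  h0 (exp_inj (b := 0) (by rw [e, Circle.exp_zero]) (by rwa [sub_zero]))

theorem coe_exp_pi : (Circle.exp π : ℂ) = -1 := by rw [Circle.coe_exp, Complex.exp_pi_mul_I]

theorem exp_ne_neg {a : ℝ} (h : |a| < π) : (Circle.exp a : ℂ) ≠ -1 := fun e => by
  have h1 := abs_lt.1 h
  have := exp_inj (a := a) (b := π) (Circle.ext (e.trans coe_exp_pi.symm))
    (abs_lt.2 ⟨by linarith, by linarith⟩)
  linarith

theorem re_exp (a : ℝ) : (Circle.exp a : ℂ).re = cos a := by
  rw [Circle.coe_exp, Complex.exp_ofReal_mul_I_re]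

/-- the argument -/
def ar (c : Circle) : ℝ := Complex.arg c

theorem exp_ar (c : Circle) : Circle.exp (ar c) = c := Circle.exp_arg c

theorem abs_ar_lt {c : Circle} (h : (c : ℂ) ≠ -1) : |ar c| < π :=
  abs_lt.2 ⟨Complex.neg_pi_lt_arg _, lt_of_le_of_ne (Complex.arg_le_pi _) fun e =>
    h (by rw [← exp_ar c, show ar c = π from e, coe_exp_pi])⟩

theorem abs_ar_le (c : Circle) : |ar c| ≤ π := Complex.abs_arg_le_pi _

theorem ar_exp {a : ℝ} (h : |a| < π) : ar (Circle.exp a) = a := by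
  have h1 := abs_lt.1 (abs_ar_lt (exp_ne_neg h))
  have h2 := abs_lt.1 h
  exact exp_inj (exp_ar _) (abs_lt.2 ⟨by linarith, by linarith⟩)

theorem continuousAt_ar {c : Circle} (h : (c : ℂ) ≠ -1) : ContinuousAt ar c := by
  refine (Complex.continuousAt_arg (Complex.mem_slitPlane_iff_arg.2 ⟨fun e => ?_, c.coe_ne_zero⟩)).comp
    (f := fun c : Circle => (c : ℂ)) Line51.contMDiff_coe.continuous.continuousAt
  exact (abs_lt.1 (abs_ar_lt h)).2.ne e

theorem abs_ar_le_of {c : Circle} {a : ℝ} (ha : 0 ≤ a) (h : cos a ≤ (c : ℂ).re) : |ar c| ≤ a := by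
  by_contra hn
  have h1 := cos_lt_cos_of_nonneg_of_le_pi ha (abs_ar_le c) (not_le.1 hn)
  rw [cos_abs, ← re_exp, exp_ar] at h1
  exact h1.not_ge h

/-- the angle of `cay s` in `(-2π, 0)` -/
def bt (s : ℝ) : ℝ := 2 * arctan s - π

theorem cay_eq (s : ℝ) : cay s = Circle.exp (bt s) := by
  rw [cay, bt, ← Circle.exp_add_two_pi (2 * arctan s - π)]
  congr 1
  ring

theorem bt_mono : StrictMono bt := fun _ _ h => by
  have := arctan_strictMono h
  simp only [bt]; linarith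

theorem bt_mem (s : ℝ) : -(2 * π) < bt s ∧ bt s < 0 := by
  have := arctan_lt_pi_div_two s
  have := neg_pi_div_two_lt_arctan s
  simp only [bt]; constructor <;> linarith

theorem bt_zero : bt 0 = -π := by simp [bt]

theorem bt_neg (s : ℝ) : bt (-s) = -bt s - 2 * π := by
  simp only [bt, arctan_neg]; ring

theorem continuous_bt : Continuous bt := by unfold bt; fun_prop

theorem bt_gt {s : ℝ} (h : 0 < s) : -π < bt s := bt_zero ▸ bt_mono h

theorem cay_inj {s t : ℝ} (h : cay s = cay t) : s = t := by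
  have h1 := bt_mem s
  have h2 := bt_mem t
  rw [cay_eq, cay_eq] at h
  exact bt_mono.injective (exp_inj h (abs_lt.2 ⟨by linarith, by linarith⟩))

/-- a small angle is far out in the box -/
theorem le_abs_of_cay {s c a : ℝ} (hc : 0 < c) (h : cay s = Circle.exp a) (ha : |a| ≤ -bt c) :
    c ≤ |s| := by
  by_contra hn
  have h0 := abs_lt.1 (not_le.1 hn)
  have h1 := bt_mono h0.1
  have h2 := bt_mono h0.2
  have h3 := abs_le.1 ha
  have h4 := bt_gt hc
  have h5 := bt_mem c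
  rw [bt_neg] at h1
  rw [cay_eq] at h
  obtain ⟨n, hn⟩ := Circle.exp_eq_exp.1 h
  have h6 : (n : ℝ) < 0 := by nlinarith [pi_pos]
  have h7 : (-1 : ℝ) < n := by nlinarith [pi_pos]
  have h8 : n < 0 := by exact_mod_cast h6
  have h9 : -1 < n := by exact_mod_cast h7
  omega

/-- two continuous logarithms on an interval -/
theorem log_eq {f g : ℝ → ℝ} {s t : ℝ} (hf : ContinuousOn f (uIcc s t)) (hg : ContinuousOn g (uIcc s t))
    (h : ∀ x ∈ uIcc s t, Circle.exp (f x) = Circle.exp (g x)) (h0 : f s = g s) : f t = g t :=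
  Circle.isCoveringMap_exp.eqOn_of_comp_eqOn isPreconnected_uIcc hf hg h left_mem_uIcc h0
    right_mem_uIcc

/-! ### angles along orbits -/

variable {Y : CM 3} {R : CM 2} {o : Fm 3 Y} {v : Vf Y} {Φ : Y → Circle} {M K : Set Y} {σ : ℝ}

theorem phi_fl' (hv : SmV (𝓡 3) v) (h : SC Φ) {y : Y} {a : ℝ} (ha : Φ y = Circle.exp a) (t : ℝ) :
    Φ (fl v t y) = Circle.exp (a + ag Φ v y t) := by rw [phi_fl hv h, ha, Circle.exp_add]

theorem continuous_ag' (hv : SmV (𝓡 3) v) (h : SC Φ) (y : Y) : Continuous (ag Φ v y) :=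
  continuous_iff_continuousAt.2 fun t => (hasDerivAt_ag hv h y t).continuousAt

theorem ag_cont (hv : SmV (𝓡 3) v) (h : SC Φ) {X : Type*} [TopologicalSpace X] {y : X → Y}
    {t : X → ℝ} (hy : Continuous y) (ht : Continuous t) : Continuous fun x => ag Φ v (y x) (t x) :=
  Continuous.comp (g := fun p : Y × ℝ => ag Φ v p.1 p.2) (f := fun x => (y x, t x))
    (continuous_ag hv h) (hy.prodMk ht)

theorem ag_neg (hv : SmV (𝓡 3) v) (h : SC Φ) (y : Y) (t : ℝ) :
    ag Φ v (fl v t y) (-t) = -ag Φ v y t := by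
  have := ag_add hv h y (-t) t
  rw [neg_add_cancel, ag_zero] at this
  linarith

theorem fl_neg (hv : SmV (𝓡 3) v) (y : Y) (t : ℝ) : fl v (-t) (fl v t y) = y := by
  rw [← fl_add hv, neg_add_cancel, Flo26.fl_zero hv]

theorem ag_mul_pow (hv : SmV (𝓡 3) v) {ψ : Y → Circle} (hψ : SC ψ) (h : SC Φ) (k : ℕ) (y : Y)
    (t : ℝ) : ag (ψ * Φ ^ k) v y t = ag ψ v y t + k * ag Φ v y t := by
  have c : ∀ {g : Y → Circle}, SC g → IntervalIntegrable (fun s => rt g v (fl v s y))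
      MeasureTheory.volume 0 t := fun hg =>
    ((continuous_rt hv hg).comp (fl_cont' hv continuous_id continuous_const)).intervalIntegrable _ _
  simp only [ag, rt_mul_pow (hψ _) (h _)]
  rw [intervalIntegral.integral_add (c hψ) ((c h).const_mul _), intervalIntegral.integral_const_mul]

/-- an orbit segment that misses `-1` keeps its angle in `(-π, π)` -/
theorem abs_ag_lt (hv : SmV (𝓡 3) v) (h : SC Φ) {y : Y} {a T : ℝ} (ha : Φ y = Circle.exp a)
    (h0 : |a| < π) (hT : ∀ t ∈ uIcc 0 T, (Φ (fl v t y) : ℂ) ≠ -1) : |a + ag Φ v y T| < π := by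
  have hc : ContinuousOn (fun t => |a + ag Φ v y t|) (uIcc 0 T) :=
    (continuous_const.add (continuous_ag' hv h y)).abs.continuousOn
  by_contra hn
  obtain ⟨t, ht, e⟩ := intermediate_value_uIcc hc (a := 0) (b := T)
    (mem_uIcc_of_le (x := π) (by simpa [ag_zero] using h0.le) (not_lt.1 hn))
  refine hT t ht ?_
  rw [phi_fl' hv h ha]
  rcases abs_eq pi_pos.le |>.1 e with e | e
  · rw [e, coe_exp_pi]
  · rw [e, ← Circle.exp_add_two_pi, show -π + 2 * π = π by ring, coe_exp_pi]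

theorem hasDerivAt_sg (hσ : σ = 1 ∨ σ = -1) (hv : SmV (𝓡 3) v) (h : SC Φ) (y : Y) (s : ℝ) :
    HasDerivAt (fun s => σ * ag Φ v y (σ * s)) (rt Φ v (fl v (σ * s) y)) s := by
  refine (((hasDerivAt_ag hv h y (σ * s)).comp s
    ((hasDerivAt_id s).const_mul σ)).const_mul σ).congr_deriv ?_
  rcases hσ with rfl | rfl <;> ring

theorem sg_mono (hσ : σ = 1 ∨ σ = -1) (hv : SmV (𝓡 3) v) (h : SC Φ) {y : Y} {s : ℝ} (hs : 0 ≤ s)
    {ψ : Y → Circle} (hψ : SC ψ) {C : ℝ}
    (h0 : ∀ t ∈ Icc 0 s, 0 ≤ rt ψ v (fl v (σ * t) y) + C * rt Φ v (fl v (σ * t) y)) :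
    0 ≤ σ * ag ψ v y (σ * s) + C * (σ * ag Φ v y (σ * s)) := by
  have hd := fun t => (hasDerivAt_sg hσ hv hψ y t).fun_add ((hasDerivAt_sg hσ hv h y t).const_mul C)
  have := monotoneOn_of_deriv_nonneg (convex_Icc 0 s)
    (f := fun s => σ * ag ψ v y (σ * s) + C * (σ * ag Φ v y (σ * s)))
    (fun t _ => (hd t).continuousAt.continuousWithinAt)
    (fun t _ => (hd t).differentiableAt.differentiableWithinAt)
    (fun t ht => by rw [(hd t).deriv]; exact h0 t (interior_subset ht))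
    (left_mem_Icc.2 hs) (right_mem_Icc.2 hs) hs
  simpa [ag_zero] using this

theorem Bas.mono (hB : Bas o v Φ M) (hσ : σ = 1 ∨ σ = -1) (y : Y) :
    Monotone fun s => σ * ag Φ v y (σ * s) :=
  monotone_of_deriv_nonneg (fun t => (hasDerivAt_sg hσ hB.smv hB.smΦ y t).differentiableAt) fun t => by
    rw [(hasDerivAt_sg hσ hB.smv hB.smΦ y t).deriv]; exact hB.nn _

theorem Bas.strict (hB : Bas o v Φ M) (hσ : σ = 1 ∨ σ = -1) {y : Y} (hy : y ∉ M) {s : ℝ}
    (hs : 0 < s) : 0 < σ * ag Φ v y (σ * s) := by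
  have h := ag_strict hB.smv hB.smΦ hB.nn (y := y) (t := 0)
    (by rw [Flo26.fl_zero hB.smv]; exact hB.pos y hy)
  rw [ag_zero] at h
  rcases hσ with rfl | rfl
  · simpa using h.2 s hs
  · simpa using h.1 (-s) (neg_neg_of_pos hs)

/-- the angle grows without bound in a compact set of positive rate -/
theorem grow (hσ : σ = 1 ∨ σ = -1) (hv : SmV (𝓡 3) v) (h : SC Φ) {A : Set Y} (hA : IsCompact A)
    (hp : ∀ y ∈ A, 0 < rt Φ v y) {y : Y} (hy : ∀ s ≥ 0, fl v (σ * s) y ∈ A) (c : ℝ) :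
    ∃ s ≥ 0, c ≤ σ * ag Φ v y (σ * s) := by
  obtain ⟨m, hm, h1⟩ := hA.exists_forall_le' (continuous_rt hv h).continuousOn hp
  have h2 := Convex.mul_sub_le_image_sub_of_le_deriv (convex_Ici 0)
    (f := fun s => σ * ag Φ v y (σ * s))
    (fun t _ => (hasDerivAt_sg hσ hv h y t).continuousAt.continuousWithinAt)
    (fun t _ => (hasDerivAt_sg hσ hv h y t).differentiableAt.differentiableWithinAt) (C := m)
    (fun t ht => by rw [(hasDerivAt_sg hσ hv h y t).deriv]; exact h1 _ (hy t (interior_subset ht)))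
    0 self_mem_Ici (|c| / m) (by rw [mem_Ici]; positivity) (by positivity)
  refine ⟨|c| / m, by positivity, ?_⟩
  simp only [sub_zero, mul_zero, ag_zero] at h2
  rw [mul_div_cancel₀ _ hm.ne'] at h2
  exact (le_abs_self c).trans h2

/-- every level is reached as long as the level `1` is not in the way -/
theorem Bas.reach (hB : Bas o v Φ M) (hσ : σ = 1 ∨ σ = -1) {y : Y} {a c : ℝ}
    (ha : Φ y = Circle.exp a) (hc : σ * a ≤ c) (hn : ∀ x ∈ Icc (σ * a) c, Circle.exp (σ * x) ≠ 1) :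
    ∃ s ≥ 0, σ * (a + ag Φ v y (σ * s)) = c := by
  have h2 : ∀ x, σ * (σ * x) = x := fun x => by rcases hσ with rfl | rfl <;> ring
  have key : ∃ s ≥ 0, c - σ * a ≤ σ * ag Φ v y (σ * s) := by
    by_contra hne
    push Not at hne
    obtain ⟨s, hs, h⟩ := grow hσ hB.smv hB.smΦ
      (A := Φ ⁻¹' ((fun x => Circle.exp (σ * x)) '' Icc (σ * a) c))
      ((isCompact_Icc.image (by fun_prop)).isClosed.preimage hB.smΦ.continuous).isCompact
      (fun z ⟨x, hx, e⟩ => hB.pos z fun hz => hn x hx (e.trans (hB.one z hz)))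
      (y := y) (fun s hs => ⟨σ * (a + ag Φ v y (σ * s)), ⟨by
        have := hB.mono hσ y hs
        simp only [mul_zero, ag_zero] at this
        linarith, by linarith [hne s hs]⟩, by
          simp only [h2]; exact (phi_fl' hB.smv hB.smΦ ha _).symm⟩) (c - σ * a)
    exact (hne s hs).not_ge h
  obtain ⟨s, hs, h⟩ := key
  obtain ⟨t, ht, e⟩ := intermediate_value_Icc hs (f := fun s => σ * (a + ag Φ v y (σ * s)))
    (continuous_const.mul (continuous_const.add ((continuous_ag' hB.smv hB.smΦ y).comp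
      (continuous_const.mul continuous_id)))).continuousOn
    (⟨by simpa [ag_zero] using hc, by linarith⟩ : c ∈ Icc _ _)
  exact ⟨t, ht.1, e⟩

/-- beyond the level `1` every level up to `2π` is reached -/
theorem Bas.reach' (hB : Bas o v Φ M) (hσ : σ = 1 ∨ σ = -1) {y : Y} {a c s₀ : ℝ}
    (ha : Φ y = Circle.exp a) (hc : σ * a ≤ c) (hc' : c < 2 * π) (hs₀ : 0 ≤ s₀)
    (h0 : 0 < σ * (a + ag Φ v y (σ * s₀))) : ∃ s ≥ 0, σ * (a + ag Φ v y (σ * s)) = c := by
  rcases le_total c (σ * (a + ag Φ v y (σ * s₀))) with h | h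
  · obtain ⟨t, ht, e⟩ := intermediate_value_Icc hs₀ (f := fun s => σ * (a + ag Φ v y (σ * s)))
      (continuous_const.mul (continuous_const.add ((continuous_ag' hB.smv hB.smΦ y).comp
        (continuous_const.mul continuous_id)))).continuousOn
      (⟨by simpa [ag_zero] using hc, h⟩ : c ∈ Icc _ _)
    exact ⟨t, ht.1, e⟩
  · obtain ⟨s, hs, e⟩ := hB.reach hσ (phi_fl' hB.smv hB.smΦ ha (σ * s₀)) h fun x hx =>
      exp_ne_one (by rcases hσ with rfl | rfl <;> simp <;> linarith [hx.1])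
        (by rcases hσ with rfl | rfl <;> simp [abs_lt] <;> constructor <;> linarith [hx.1, hx.2])
    exact ⟨s + s₀, by positivity, by rw [mul_add σ s, ag_add hB.smv hB.smΦ, ← add_assoc, e]⟩

/-! ### columns -/

theorem mem_col (hv : SmV (𝓡 3) v) {y : Y} (hy : y ∈ K) (h : Φ y = 1) : y ∈ col v Φ K :=
  ⟨0, by rwa [Flo26.fl_zero hv], fun t ht => by
    rw [uIcc_self, mem_singleton_iff] at ht
    rw [ht, Flo26.fl_zero hv, h]
    norm_num⟩

theorem col_mono {K' : Set Y} (h : K ⊆ K') : col v Φ K ⊆ col v Φ K' := fun _ ⟨T, h1, h2⟩ =>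
  ⟨T, h h1, h2⟩

theorem col_union (K K' : Set Y) : col v Φ (K ∪ K') = col v Φ K ∪ col v Φ K' :=
  Subset.antisymm (fun _ ⟨T, h1, h2⟩ => h1.elim (fun h => .inl ⟨T, h, h2⟩) fun h => .inr ⟨T, h, h2⟩)
    (union_subset (col_mono subset_union_left) (col_mono subset_union_right))

theorem col_ne (hv : SmV (𝓡 3) v) {y : Y} (hy : y ∈ col v Φ K) : (Φ y : ℂ) ≠ -1 := by
  obtain ⟨T, -, h⟩ := hy
  simpa [Flo26.fl_zero hv] using h 0 left_mem_uIcc

theorem col_fl (hv : SmV (𝓡 3) v) {y : Y} (hy : y ∈ col v Φ K) {t : ℝ}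
    (ht : ∀ s ∈ uIcc 0 t, (Φ (fl v s y) : ℂ) ≠ -1) : fl v t y ∈ col v Φ K := by
  obtain ⟨T, h1, h2⟩ := hy
  refine ⟨T - t, by rwa [← fl_add hv, sub_add_cancel], fun s hs => ?_⟩
  rw [← fl_add hv]
  have h3 : s + t ∈ uIcc t T := by
    rcases mem_uIcc.1 hs with h | h
    · exact mem_uIcc.2 (.inl ⟨by linarith [h.1], by linarith [h.2]⟩)
    · exact mem_uIcc.2 (.inr ⟨by linarith [h.1], by linarith [h.2]⟩)
  rcases uIcc_subset_uIcc_union_uIcc (b := 0) h3 with h | h
  · exact ht _ (uIcc_comm 0 t ▸ h)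
  · exact h2 _ h

theorem col_of_fl (hv : SmV (𝓡 3) v) {y : Y} {t : ℝ} (hy : fl v t y ∈ col v Φ K)
    (ht : ∀ s ∈ uIcc 0 t, (Φ (fl v s y) : ℂ) ≠ -1) : y ∈ col v Φ K := by
  have := col_fl hv hy (t := -t) fun s hs => by
    rw [← fl_add hv]
    refine ht _ ?_
    rcases mem_uIcc.1 hs with h | h
    · exact mem_uIcc.2 (.inr ⟨by linarith [h.1], by linarith [h.2]⟩)
    · exact mem_uIcc.2 (.inl ⟨by linarith [h.1], by linarith [h.2]⟩)
  rwa [fl_neg hv] at this

/-- between two angles in `(-π, π)` the orbit misses `-1` -/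
theorem Bas.seg (hB : Bas o v Φ M) {y : Y} {a T : ℝ} (ha : Φ y = Circle.exp a) (h0 : |a| < π)
    (h1 : |a + ag Φ v y T| < π) : ∀ t ∈ uIcc 0 T, (Φ (fl v t y) : ℂ) ≠ -1 := fun t ht => by
  have h2 := (ag_mono hB.smv hB.smΦ hB.nn y).mapsTo_uIcc ht
  rw [ag_zero] at h2
  rw [phi_fl' hB.smv hB.smΦ ha]
  have h3 := abs_lt.1 h0
  have h4 := abs_lt.1 h1
  refine exp_ne_neg (abs_lt.2 ?_)
  rcases mem_uIcc.1 h2 with h | h <;> constructor <;> linarith [h.1, h.2]

theorem Bas.col_ang (hB : Bas o v Φ M) {y : Y} {T : ℝ} (h1 : Φ (fl v T y) = 1)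
    (h2 : ∀ t ∈ uIcc 0 T, (Φ (fl v t y) : ℂ) ≠ -1) : ar (Φ y) + ag Φ v y T = 0 := by
  have h0 : (Φ y : ℂ) ≠ -1 := by simpa [Flo26.fl_zero hB.smv] using h2 0 left_mem_uIcc
  have h3 := abs_ag_lt hB.smv hB.smΦ (exp_ar _).symm (abs_ar_lt h0) h2
  rw [phi_fl' hB.smv hB.smΦ (exp_ar _).symm] at h1
  exact by_contra fun h => exp_ne_one h (by linarith [pi_pos]) h1

theorem Bas.col_notMem (hB : Bas o v Φ M) (hK : K ⊆ PP Φ M) {y : Y} (hy : y ∈ col v Φ K) : y ∉ M := by
  obtain ⟨T, h1, h2⟩ := hy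
  intro hm
  have h3 := hB.col_ang (hK h1).1 h2
  rw [hB.one y hm, ← Circle.exp_zero, ar_exp (by simpa using pi_pos), zero_add] at h3
  have h4 := ag_strict hB.smv hB.smΦ hB.nn (hB.pos _ (hK h1).2)
  rw [h3] at h4
  rcases lt_trichotomy 0 T with h | h | h
  · exact (h4.1 0 h).ne (ag_zero y)
  · exact (hK h1).2 (by rwa [← h, Flo26.fl_zero hB.smv])
  · exact (h4.2 0 h).ne' (ag_zero y)

/-- a free column contains all angles in `(-π, π)` -/
theorem Bas.col_reach (hB : Bas o v Φ M) (hK : K ⊆ PP Φ M) {y : Y} (hy : y ∈ col v Φ K) {c : ℝ}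
    (hc : |c| < π) : ∃ t, ar (Φ y) + ag Φ v y t = c := by
  obtain ⟨T, h1, h2⟩ := hy
  have h3 := hB.col_ang (hK h1).1 h2
  have h5 := abs_lt.1 hc
  have key : ∀ σ : ℝ, σ = 1 ∨ σ = -1 → 0 ≤ σ * c → ∃ t, ar (Φ y) + ag Φ v y t = c := fun σ hσ h => by
    obtain ⟨s, -, e⟩ := hB.reach' hσ (y := fl v T y) (a := 0) (c := σ * c) (s₀ := 1)
      (by rw [(hK h1).1, Circle.exp_zero]) (by simpa using h)
      (by rcases hσ with rfl | rfl <;> linarith) zero_le_one
      (by rw [zero_add]; exact hB.strict hσ (hK h1).2 one_pos)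
    refine ⟨σ * s + T, ?_⟩
    rw [ag_add hB.smv hB.smΦ, ← add_assoc, h3]
    rcases hσ with rfl | rfl <;> linarith
  rcases le_total 0 c with h | h
  exacts [key 1 (.inl rfl) (by linarith), key (-1) (.inr rfl) (by linarith)]

/-- the part of the columns over a compact set with angles in a compact range is compact -/
theorem Bas.col_compact (hB : Bas o v Φ M) (hK : K ⊆ PP Φ M) (hc : IsCompact K) {c : ℝ} (h : c < π) :
    IsCompact {y | y ∈ col v Φ K ∧ |ar (Φ y)| ≤ c} := by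
  obtain ⟨c', h1, h2⟩ := exists_between (max_lt h pi_pos)
  have h1' := (le_max_left _ _).trans_lt h1
  have h1'' := (le_max_right _ _).trans_lt h1
  have hm := ag_mono hB.smv hB.smΦ hB.nn
  have a0 : ∀ y ∈ K, ar (Φ y) = 0 := fun y hy => by
    rw [(hK hy).1, ← Circle.exp_zero, ar_exp (by simpa using pi_pos)]
  obtain ⟨T, hT⟩ : ∃ T : ℝ, ∀ y ∈ K, c < ag Φ v y T ∧ ag Φ v y (-T) < -c := by
    refine hc.induction_on (p := fun s => ∃ T : ℝ, ∀ y ∈ s, c < ag Φ v y T ∧ ag Φ v y (-T) < -c)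
      ⟨0, fun _ h => h.elim⟩ (fun _ _ hs ⟨T, hT⟩ => ⟨T, fun y hy => hT y (hs hy)⟩)
      (fun _ _ ⟨T, hT⟩ ⟨T', hT'⟩ => ⟨max T T', fun y hy => hy.elim
        (fun h => ⟨(hT y h).1.trans_le (hm y (le_max_left _ _)),
          (hm y (neg_le_neg (le_max_left _ _))).trans_lt (hT y h).2⟩)
        fun h => ⟨(hT' y h).1.trans_le (hm y (le_max_right _ _)),
          (hm y (neg_le_neg (le_max_right _ _))).trans_lt (hT' y h).2⟩⟩) fun y hy => ?_
    obtain ⟨t, ht⟩ := hB.col_reach hK (mem_col hB.smv hy (hK hy).1) (c := c')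
      (by rwa [abs_of_pos h1''])
    obtain ⟨t', ht'⟩ := hB.col_reach hK (mem_col hB.smv hy (hK hy).1) (c := -c')
      (by rwa [abs_neg, abs_of_pos h1''])
    rw [a0 y hy, zero_add] at ht ht'
    have cc : ∀ t, Continuous fun z => ag Φ v z t := fun t =>
      ag_cont hB.smv hB.smΦ continuous_id continuous_const
    refine ⟨{z | c < ag Φ v z (max t (-t')) ∧ ag Φ v z (-max t (-t')) < -c},
      mem_nhdsWithin_of_mem_nhds (((isOpen_lt continuous_const (cc _)).inter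
        (isOpen_lt (cc _) continuous_const)).mem_nhds ⟨?_, ?_⟩), _, fun _ hz => hz⟩
    · exact (h1'.trans_eq ht.symm).trans_le (hm y (le_max_left _ _))
    · exact (hm y (neg_le.1 (le_max_right _ _))).trans_lt (by linarith)
  have hcp : IsCompact ((K ×ˢ Icc (-T) T) ∩ {p : Y × ℝ | |ag Φ v p.1 p.2| ≤ c}) :=
    (hc.prod isCompact_Icc).inter_right
      (isClosed_le (continuous_ag hB.smv hB.smΦ).abs continuous_const)
  convert hcp.image (fl_cont' hB.smv continuous_snd continuous_fst) using 1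
  ext y
  constructor
  · rintro ⟨⟨t, h3, h4⟩, h5⟩
    have h6 := hB.col_ang (hK h3).1 h4
    have h7 : ag Φ v (fl v t y) (-t) = ar (Φ y) := by rw [ag_neg hB.smv hB.smΦ]; linarith
    have h8 := abs_le.1 h5
    refine ⟨(fl v t y, -t), ⟨⟨h3, not_lt.1 fun h => ?_, not_lt.1 fun h => ?_⟩, by
      simpa only [mem_ofPred_eq, h7] using h5⟩, fl_neg hB.smv _ _⟩
    · linarith [hm (fl v t y) h.le, (hT _ h3).2]
    · linarith [hm (fl v t y) h.le, (hT _ h3).1]
  · rintro ⟨⟨z, t⟩, ⟨⟨hz, -⟩, h3⟩, rfl⟩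
    have h4 : Φ z = Circle.exp 0 := by rw [(hK hz).1, Circle.exp_zero]
    have h5 : |0 + ag Φ v z t| < π := by rw [zero_add]; exact lt_of_le_of_lt h3 h
    refine ⟨col_fl hB.smv (mem_col hB.smv hz (hK hz).1)
      (hB.seg h4 (by simpa using pi_pos) h5), ?_⟩
    rw [phi_fl' hB.smv hB.smΦ h4, ar_exp h5, zero_add]
    exact h3

end Crest.Agent.X212.Hel40
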