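import Crest.Agent.X212.H7.Defs
import Crest.Agent.X212.Hel40.Ang

/-!
# X212/Hel40/Stp (helper40): the statements of the last layer of HEL

`TT` (data of one step), leaves `TfStmt`, `SurfStmt`, `PsiStmt`, `StepStmt`, `MainStmt`.
-/

set_option autoImplicit false
set_option linter.unusedSectionVars false

open Set Filter Topology Function
open scoped ContDiff Manifold
open Crest.Agent.R208.F Crest.Agent.X212.Dr59 Crest.Agent.X212.Int54 Crest.Agent.X212.Cyl58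
open Crest.Agent.X212.Sep15 (EE IR CM Box slab px Rg)
open Crest.Agent.X212.Bb31 (Fm Cy Df Pos)
open Crest.Agent.X212.Flo26 (SmV fl)
open Crest.Agent.X212.H7 (KK An NS Hd G3 FT Fib)
open Crest.Agent.X212.Line51 (ang)

noncomputable section

namespace Crest.Agent.X212.Hel40

variable {Y Y' : CM 3} {R : CM 2}

/-- the data of a step: `Y'` is the next (higher) level -/
structure TT (U : Set Y) (Φ : Y → Circle) (U' : Set Y') (Φ' : Y' → Circle) (oR : Fm 2 R)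
    {b : R × ℝ → Y} {b' : R × ℝ → Y'} {h : Df R} (G : Rg b h b') : Prop where
  oriR : Ori (𝓡 2) oR
  conn : IsPreconnected (univ : Set R)
  kk : KK oR h
  sm : SC Φ
  sm' : SC Φ'
  box : ∀ p, Φ (b p) = cay p.2
  hel : ∃ (k : ℕ) (A B : ℂ → R) (δ ε : ℝ), 0 < k ∧ Hd oR A B δ ∧ 0 < ε ∧ ε < δ ∧
    ∀ p : R × ℝ, |p.2| < 3 → Φ' (b' p) = cay p.2 ^ k * del A ε p.1
  sl' : slab b' (Icc (-3) 3) ⊆ U'
  rest : ∀ y ∈ U, y ∉ slab b (Ioo (-1) 1) → G.φ y ∈ U' ∧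
    ∃ f > (0 : ℝ), dl (𝓡 3) (Φ' ∘ G.φ) y = f • dl (𝓡 3) Φ y
  clm : ∃ D c e₁ e₂, Clm b' U' Φ' D c e₁ e₂

theorem TT.mono {U : Set Y} {Φ : Y → Circle} {U' U'' : Set Y'} {Φ' : Y' → Circle} {oR : Fm 2 R}
    {b : R × ℝ → Y} {b' : R × ℝ → Y'} {h : Df R} {G : Rg b h b'} (T : TT U Φ U' Φ' oR G)
    (hU : U' ⊆ U'') : TT U Φ U'' Φ' oR G :=
  { T with
    sl' := T.sl'.trans hU
    rest := fun y a c => ⟨hU (T.rest y a c).1, (T.rest y a c).2⟩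
    clm := let ⟨D, c, e₁, e₂, C⟩ := T.clm
      ⟨D, c, e₁, e₂, { C with mem := fun p a c => hU (C.mem p a c) }⟩ }

/-- TF: a step in the language of forms -/
def TfStmt : Prop := ∀ (Y Y' : CM 3) (R : CM 2) (U : Set Y) (Φ : Y → Circle) (U' : Set Y')
  (Φ' : Y' → Circle) (oR : Fm 2 R) (b : R × ℝ → Y) (b' : R × ℝ → Y') (h : Df R) (G : Rg b h b'),
  TT U Φ U' Φ' oR G → FT Y' U' (ang (𝓡 3) Φ') → FT Y U (ang (𝓡 3) Φ)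

/-- SURF: the regluing map -/
def SurfStmt : Prop := ∀ (R : CM 2) (oR : Fm 2 R) (K₁ K₂ : Set R) (e₁ e₂ : ℂ → R) (δ δ' ε : ℝ)
  (u₁ u₂ : R → Circle), Ori (𝓡 2) oR → IsPreconnected (univ : Set R) → IsClosed K₁ → IsClosed K₂ →
  IsPreconnected K₁ᶜ → IsPreconnected K₂ᶜ → Hdl e₁ δ → Hdl e₂ δ → 0 < δ' → δ' < δ → 0 < ε →
  ε ≤ δ' / 2 → SC u₁ → SC u₂ → (∀ x ∈ K₁, u₁ x = 1) → (∀ x ∈ K₂, u₂ x = 1) →
  (∀ z ∈ Xc δ', e₁ z ∉ K₁ ∧ e₂ z ∉ K₂ ∧ u₁ (e₁ z) = dz ε z ∧ u₂ (e₂ z) = dz ε z) →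
  ∃ (h : Df R) (A B : ℂ → R) (δ₁ ε₁ : ℝ), KK oR h ∧ Pos oR h ∧ Hd oR A B δ₁ ∧ 0 < ε₁ ∧ ε₁ < δ₁ ∧
    SC (del A ε₁) ∧ Hm u₁ (del A ε₁ ∘ h) ∧ Hm u₂ (del A ε₁) ∧
    (∀ᶠ x in 𝓝ˢ K₁, del A ε₁ (h x) = 1) ∧ ∀ᶠ x in 𝓝ˢ K₂, del A ε₁ x = 1

/-- PSI: the cutting function on the reglued manifold -/
def PsiStmt : Prop := ∀ (Y Y' : CM 3) (R : CM 2) (b : R × ℝ → Y) (b' : R × ℝ → Y') (h : Df R)
  (G : Rg b h b') (ψ : Y → Circle) (D : R → Circle) (l₁ l₂ : R → ℝ),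
  ContMDiffOn (𝓡 3) (𝓡 1) ∞ ψ (slab b {0})ᶜ → SC D → ContMDiff (𝓡 2) 𝓘(ℝ, ℝ) ∞ l₁ →
  ContMDiff (𝓡 2) 𝓘(ℝ, ℝ) ∞ l₂ → (∀ x, ∀ s ∈ Ioc (0 : ℝ) 7,
    ψ (b (x, s)) = D (h x) * Circle.exp (l₁ x) ∧ ψ (b (x, -s)) = D x * Circle.exp (l₂ x)) →
  ∃ (ψ' : Y' → Circle) (χ : ℝ → ℝ), SC ψ' ∧ ContDiff ℝ ∞ χ ∧
    (∀ y ∉ slab b (Ioo (-4) 4), ψ' (G.φ y) = ψ y) ∧ (∀ p : R × ℝ, |p.2| ≤ 3 → ψ' (b' p) = D p.1) ∧
    ∀ x, ∀ s ∈ Ioc (0 : ℝ) 7, ψ' (b' (h x, s)) = D (h x) * Circle.exp (χ s * l₁ x) ∧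
      ψ' (b' (x, -s)) = D x * Circle.exp (χ s * l₂ x)

/-- STEP: one stage of the hierarchy is one regluing -/
def StepStmt : Prop := ∀ (Y : CM 3) (o : Fm 3 Y) (v : Vf Y) (Φ : Y → Circle) (M M' U K : Set Y)
  (δ a : ℝ) (E : ℂ × ℝ → Y) (S : Pre v M M') (n : ℕ), St o v Φ M U K δ a E → S.Cd true →
  Hi v true n M' → a = 10 ∨ (a = 4 ∧ K = ∅ ∧ ∀ y, S.φ y = 1) →
  ∃ (Y' : CM 3) (o' : Fm 3 Y') (v' : Vf Y') (Φ' : Y' → Circle) (M'' U' K' : Set Y') (δ' : ℝ)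
    (E' : ℂ × ℝ → Y') (R : CM 2) (oR : Fm 2 R) (b : R × ℝ → Y) (b' : R × ℝ → Y') (h : Df R)
    (G : Rg b h b'), St o' v' Φ' M'' U' K' δ' 10 E' ∧ Hi v' true n M'' ∧
      TT (U ∪ Mid Φ) Φ U' Φ' oR G

/-- IDLE: the stage which does not cut -/
def IdleStmt : Prop := ∀ (Y : CM 3) (o : Fm 3 Y) (v : Vf Y) (Φ : Y → Circle) (M M' : Set Y)
  (S : Pre v M M'), Bas o v Φ M → S.Cd true → IsPreconnected (PP Φ M) →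
  ∃ S₀ : Pre v M M, S₀.Cd true ∧ ∀ y, S₀.φ y = 1

/-- MAIN: the output of the package HEL -/
def MainStmt : Prop := ∀ (Y : CM 3) (o : Fm 3 Y) (Φ : Y → Circle), SmH o Φ →
  ∃ (R : CM 2) (b : R × ℝ → Y) (U : Set Y), ConnectedSpace R ∧ Fib Φ b ∧
    slab b (Ioo (-1) 1) ⊆ U ∧ FT Y U (ang (𝓡 3) Φ)

end Crest.Agent.X212.Hel40
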