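import Crest.Agent.X212.Hel40.Fw
import Crest.Agent.X212.Hl33.Foot
import Crest.Agent.X212.Hd34.Hd

/-!
# X212/Hel40/Band (helper40): the new state (`BandStmt`)
-/

set_option autoImplicit false
set_option linter.unusedSectionVars false

open Set Filter Topology Function Real
open scoped ContDiff Manifold
open Crest.Agent.X212.Dr59 Crest.Agent.X212.Cyl58
open Crest.Agent.X212.Sep15 (EE IR CM Box slab px Rg)
open Crest.Agent.X212.Bb31 (Fm)
open Crest.Agent.X212.Flo26 (SmV fl)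

noncomputable section

namespace Crest.Agent.X212.Hel40

variable {Y : CM 3} {R : CM 2} {o : Fm 3 Y} {v : Vf Y} {Φ ψ : Y → Circle} {M M' K N W W₁ : Set Y}
  {σ : ℝ} {oR : Fm 2 R} {b : R × ℝ → Y} {C : ℝ} {k : ℕ}

theorem ev {c : ℝ} (hc : 0 < c) (A : ℝ) : ∀ᶠ k : ℕ in atTop, A ≤ k * c :=
  (tendsto_natCast_atTop_atTop.atTop_mul_const hc).eventually_ge_atTop A

theorem Jd.image {Z Z' : Type*} [TopologicalSpace Z] [TopologicalSpace Z'] {B : Set Z} {B' : Set Z'}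
    {p q : Z} (h : Jd B p q) {f : Z → Z'} (hf : ContinuousOn f B) (hB : MapsTo f B B') :
    Jd B' (f p) (f q) :=
  let ⟨A, a1, a2, a3, a4⟩ := h
  ⟨f '' A, (hB.mono_left a1).image_subset, a2.image _ (hf.mono a1), ⟨p, a3, rfl⟩, q, a4, rfl⟩

theorem exists_sg (x : ℝ) : ∃ σ : ℝ, (σ = 1 ∨ σ = -1) ∧ σ * x ≤ 0 :=
  (le_total x 0).elim (fun h => ⟨1, .inl rfl, by linarith⟩) fun h => ⟨-1, .inr rfl, by linarith⟩

theorem Pre.free (S : Pre v M M') (hB : Bas o v Φ M) (hσ : σ = 1 ∨ σ = -1) (hW : IsClosed W)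
    (hWO : W ⊆ S.O) {y : Y} (h : Stay v Φ y W) (h0 : (σ = 1 → 0 < S.tp y) ∧ (σ = -1 → S.tm y < 0))
    {c : ℝ} (h1 : σ * ar (Φ y) ≤ c) (h2 : c < 2 * π) :
    ∃ T, σ * (ar (Φ y) + ag Φ v y T) = c ∧ ∀ t ∈ uIcc 0 T, fl v t y ∉ M := by
  rcases hσ with rfl | rfl
  · exact Hel40.free hB (.inl rfl) S.op S.sp S.pv (fun y h => ((S.meq y).1 h).2.1) hW hWO h
      (by linarith [h0.1 rfl]) h1 h2
  · exact Hel40.free hB (.inr rfl) S.op S.sm S.mv (fun y h => ((S.meq y).1 h).2.2) hW hWO h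
      (by linarith [h0.2 rfl]) h1 h2

/-- points of the new middle surface near the plateau flow into `Gam` -/
theorem Pre.into (S : Pre v M M') (hB : Bas o v Φ M) (hψ : SC ψ) {ρ c : ℝ} (hN : IsOpen N)
    (hNW : closure N ⊆ W) (eN : ∀ y, y ∈ N ↔ y ∈ S.O ∧ S.tp y < ρ ∧ -S.tm y < ρ) (hc : c < π)
    (hW : ∀ y ∈ W, y ∈ S.O ∧ ψ y = S.φ y ∧ 0 ≤ rt ψ v y ∧ |ar (Φ y)| ≤ c) {y : Y} (hy : y ∈ N)
    (hM : y ∉ M) {r : ℝ} (hr : ψ y = Circle.exp r) (s1 : 0 ≤ r → ar (Φ y) ≤ 0)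
    (s2 : r ≤ 0 → 0 ≤ ar (Φ y)) : ∃ T, fl v T y ∈ closure N ∧ (fl v T y, r + ag ψ v y T) ∈ S.Gam ∧
      |r + ag ψ v y T| ≤ |r| + 1 ∧ ar (Φ (fl v T y)) = ar (Φ y) + ag Φ v y T := by
  have hv := hB.smv
  have sO : W ⊆ S.O := fun y h => (hW y h).1
  obtain ⟨y0, y1, y2⟩ := (eN y).1 hy
  have key : ∀ T, fl v T y ∈ closure N → fl v T y ∈ S.O ∧
      S.φ (fl v T y) = Circle.exp (r + ag ψ v y T) := fun T h =>
    ⟨sO (hNW h), (hW _ (hNW h)).2.1.symm.trans (phi_fl' hv hψ hr T)⟩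
  by_cases g : (0 < S.tp y ∧ r < 0) ∨ (S.tm y < 0 ∧ 0 < r) ∨ (0 < S.tp y ∧ S.tm y < 0)
  · have h0 : fl v 0 y ∈ closure N := by rw [Flo26.fl_zero hv]; exact subset_closure hy
    refine ⟨0, h0, ⟨(key 0 h0).1, (key 0 h0).2, ?_⟩, ?_, ?_⟩ <;>
      simp only [ag_zero, add_zero, Flo26.fl_zero hv]
    exacts [g, by linarith]
  simp only [not_or, not_and, not_lt] at g
  rcases (S.p0 y y0).eq_or_lt with h | h
  · have h' : S.tm y < 0 := (S.m0 y y0).lt_of_ne fun e => hM ((S.meq y).2 ⟨y0, h.symm, e⟩)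
    obtain ⟨T, a1, a2, a3, a4, a5⟩ := Hel40.into hB hψ (.inl rfl) (p := fun y => -S.tm y) (q := S.tp)
      (S.sm.continuousOn.mono sO).neg (S.sp.continuousOn.mono sO) hN hNW
      (fun y h a c => (eN y).2 ⟨sO h, c, a⟩) (fun y h a c => (S.meq y).2 ⟨sO h,
        c.antisymm (S.p0 y (sO h)), (S.m0 y (sO h)).antisymm (by linarith)⟩)
      (fun y h => (hW y h).2.2) hc hy hM (fun s hs h => by
        linarith [sg_le hv (.inl rfl) S.op S.sm S.mv hs fun t ht => sO (h t ht)])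
      (by linarith) y2 (r := r) (by linarith [g.2.1 h']) (by linarith [s2 (g.2.1 h')])
    exact ⟨T, a1, ⟨(key T a1).1, (key T a1).2, .inr (a4.imp (fun h => ⟨by linarith, by linarith⟩)
      fun h => ⟨h, by linarith⟩)⟩, a3, a5⟩
  · obtain ⟨T, a1, a2, a3, a4, a5⟩ := Hel40.into hB hψ (.inr rfl) (p := S.tp) (q := fun y => -S.tm y)
      (S.sp.continuousOn.mono sO) (S.sm.continuousOn.mono sO).neg hN hNW
      (fun y h a c => (eN y).2 ⟨sO h, a, c⟩) (fun y h a c => (S.meq y).2 ⟨sO h,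
        a.antisymm (S.p0 y (sO h)), (S.m0 y (sO h)).antisymm (by linarith)⟩)
      (fun y h => (hW y h).2.2) hc hy hM (fun s hs h => by
        linarith [sg_le hv (.inr rfl) S.op S.sp S.pv hs fun t ht => sO (h t ht)])
      h y1 (r := r) (by linarith [g.1 h]) (by linarith [s1 (g.1 h)])
    exact ⟨T, a1, ⟨(key T a1).1, (key T a1).2, a4.imp (fun h => ⟨a2, by linarith⟩)
      fun h => .inr ⟨a2, by linarith⟩⟩, a3, a5⟩

/-- points of `Gam` reach the new middle surface -/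
theorem Pre.gam (S : Pre v M M') (hB : Bas o v Φ M) (hX : Bx o v Φ oR b) (hψ : SC ψ)
    (hB' : Bas o v (ψ * Φ ^ k) M') (hC0 : 0 ≤ C) (hC : ∀ y, 0 ≤ rt ψ v y + C * rt Φ v y) (hk : 0 < k)
    (hW : IsClosed W) (sW : ∀ y ∈ W, y ∈ S.O ∧ 0 ≤ rt ψ v y) {y : Y} {r : ℝ} (h : (y, r) ∈ S.Gam)
    (e : ψ y = S.φ y) (hS : Stay v Φ y W) (hK : y ∉ col v Φ K) (h1 : |ar (Φ y)| < -bt 5)
    (h2 : |r| + 2 * π * C ≤ -(k * bt 5)) :
    (y, r + k * ar (Φ y)) ∈ Zs (ψ * Φ ^ k) v ({y | (ψ * Φ ^ k) y = 1} ∩ (Ct v Φ b K ∪ M)ᶜ) := by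
  obtain ⟨σ, hσ, h3⟩ := exists_sg (r + k * ar (Φ y))
  have hr := e.trans h.2.1
  rcases lt_or_ge 0 (σ * r) with h4 | h4
  · exact fwB hB hX hψ hB' hσ hr hK h1.le hS (fun y h => (sW y h).2) hk h3 h4
  have h5 : σ * ar (Φ y) < -bt 5 := ((le_abs_self _).trans (abs_sg hσ _).le).trans_lt h1
  obtain ⟨T, a1, a2⟩ := S.free hB hσ hW (fun y h => (sW y h).1) hS ⟨fun e => h.2.2.elim And.left
    fun h => h.elim (fun h => by rw [e] at h4; linarith [h.2]) And.left, fun e => h.2.2.elim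
      (fun h => by rw [e] at h4; linarith [h.2]) fun h => h.elim And.left And.right⟩ h5.le
    (by linarith [c5.2, pi_pos])
  exact fwA hB hX hψ hB' hC0 hC hσ hr hK h1.le h5 a1 a2 h3
    (by linarith [neg_abs_le (σ * r), abs_sg hσ r])

set_option maxHeartbeats 800000 in
theorem band (hF : FootStmt) (hS : SlabStmt) : BandStmt := by
  intro Y R o v Φ M M' K U' oR b S ψ u a e δ hB hX hCd cK sK cP cPK cR hψ hφ hu _ hd ha he he' hU
  have hv := hB.smv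
  obtain ⟨F, f, p, ft⟩ := hF Y R o v Φ M oR b 1 hB hX (.inl rfl) ⟨a 0⟩
  have u5 : ∀ x, ψ (b (x, 5)) = u x := fun x => hu x 5 (by norm_num)
  have cb := hX.box.contMDiff.continuous
  have cu : Continuous u := (hψ.continuous.comp (cb.comp (Continuous.prodMk_left 5))).congr u5
  have cΦ : Continuous fun y => (Φ y : ℂ) := continuous_subtype_val.comp hB.smΦ.continuous
  have car : ∀ y, (Φ y : ℂ) ≠ -1 → ContinuousAt (fun y => ar (Φ y)) y := fun y h =>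
    (continuousAt_ar h).comp hB.smΦ.continuous.continuousAt
  haveI := ChartedSpace.locallyConnectedSpace (EE 2) R
  -- neighbourhoods of the plateau
  obtain ⟨W₀, o₀, m₀, e₀⟩ := eventually_nhdsSet_iff_exists.1 hφ
  have MO : M ⊆ S.O := fun y hy => ((S.meq y).1 hy).1
  have rt0 : ∀ y ∈ W₀, rt ψ v y = rt S.φ v y := fun y hy =>
    rt_congr (by filter_upwards [o₀.mem_nhds hy] with z hz using e₀ z hz)
  obtain ⟨C, hC0, hC⟩ := exists_C hB hψ (by
    filter_upwards [o₀.mem_nhdsSet.2 m₀, S.op.mem_nhdsSet.2 MO] with y h1 h2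
    rw [rt0 y h1]; exact S.φv y h2)
  have cC := Ct.cpt hB hX sK cK
  have CM : ∀ y ∈ Ct v Φ b K, y ∉ M := by
    rintro y (⟨q, -, rfl⟩ | h)
    exacts [hX.notMem hB q, hB.col_notMem sK h]
  obtain ⟨W₁, n₁, c₁, s₁⟩ := exists_mem_nhdsSet_isClosed_subset (((o₀.inter S.op).inter
    ((hX.cpt (-6) 6).union cC).isClosed.isOpen_compl).mem_nhdsSet.2 fun y hy => ⟨⟨m₀ hy, MO hy⟩,
      fun h => h.elim (fun ⟨q, _, e⟩ => hX.notMem hB q (e ▸ hy)) fun h => CM y h hy⟩) hB.cl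
  have w₁ : ∀ y ∈ W₁, (y ∈ S.O ∧ ψ y = S.φ y ∧ 0 ≤ rt ψ v y ∧ |ar (Φ y)| ≤ -bt 6) ∧ y ∉ col v Φ K :=
    fun y h => ⟨⟨(s₁ h).1.2, e₀ y (s₁ h).1.1, rt0 y (s₁ h).1.1 ▸ S.φv y (s₁ h).1.2,
      (hX.not_slab (by norm_num)).1 fun e => (s₁ h).2
        (.inl (image_mono (prod_mono_right Ioo_subset_Icc_self) e))⟩, fun e => (s₁ h).2 (.inr (.inr e))⟩
  obtain ⟨W₂, n₂, c₂, s₂⟩ := exists_mem_nhdsSet_isClosed_subset
    (isOpen_interior.mem_nhdsSet.2 (subset_interior_iff_mem_nhdsSet.2 n₁)) hB.cl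
  obtain ⟨η, η0, hη⟩ := hS Y o v Φ M hB W₁ n₁ W₂ n₂ (c₂.closure_eq.symm ▸ s₂)
  obtain ⟨W', n', D, Q, cQ, q1, q2⟩ := hCd (W₂ ∩ {y | 1 - η < (Φ y : ℂ).re}) (inter_mem n₂
    ((isOpen_lt continuous_const (Complex.continuous_re.comp cΦ)).mem_nhdsSet.2 fun y hy => by
      simpa [hB.one y hy] using η0))
  have st : ∀ y ∈ W₂ ∩ {y | 1 - η < (Φ y : ℂ).re}, y ∈ W₁ ∧ Stay v Φ y W₁ := fun y hy =>
    ⟨interior_subset (s₂ hy.1), fun T h => hη y hy.1 T fun t ht => hy.2.out.le.trans (h t ht)⟩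
  obtain ⟨ρ, ρ0, N, oN, mN, cN, eN⟩ := S.small (inter_mem n' n₁)
  have m56 := bt_mono (show (5 : ℝ) < 6 by norm_num)
  have z6 := (bt_mem 6).2
  have p5 := c5.2
  -- the feet
  have PF : PP Φ M ⊆ col v Φ (PP Φ M) := fun y hy => mem_col hv hy hy.1
  have fK : ∀ y ∈ col v Φ (PP Φ M), f y ∈ f '' K → y ∈ col v Φ K := fun y hy ⟨z, hz, e⟩ =>
    (ft.colK K sK y).2 ⟨hy, by rw [← e, ft.right z (sK hz)]; exact hz⟩
  have bF : ∀ x, b (x, 5) ∈ col v Φ (PP Φ M) ↔ x ∈ F := fun x => ft.mem x 5 (by norm_num)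
  have fb : ∀ x, f (b (x, 5)) = x := fun x => ft.box x 5 (by norm_num)
  have bK : ∀ x, b (x, 5) ∈ col v Φ K ↔ x ∈ f '' K := fun x => ⟨fun h => by
    obtain ⟨h1, h2⟩ := (ft.colK K sK _).1 h
    rw [fb] at h2
    exact ⟨_, h2, ft.left x ((bF x).1 h1)⟩, fun ⟨y, hy, e⟩ =>
      fK _ ((bF x).2 (e ▸ ft.maps (PF (sK hy)))) ⟨y, hy, e.trans (fb x).symm⟩⟩
  have cf := ft.sm.continuousOn
  have cK' : IsCompact (f '' K) := cK.image_of_continuousOn (cf.mono (sK.trans PF))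
  have cF : IsPreconnected F := by
    convert cP.image f (cf.mono PF) using 1
    exact Subset.antisymm (fun x hx => ⟨_, ft.maps' hx, ft.left x hx⟩) (ft.maps.mono_left PF).image_subset
  have cV : IsPreconnected (F \ f '' K) := by
    convert cPK.image f (cf.mono (sdiff_subset.trans PF)) using 1
    refine Subset.antisymm (fun x hx => ⟨_, ⟨ft.maps' hx.1, fun h => hx.2 ⟨_, h, ft.left x hx.1⟩⟩,
      ft.left x hx.1⟩) ?_
    rintro _ ⟨y, hy, rfl⟩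
    exact ⟨ft.maps (PF hy.1), fun ⟨z, hz, e⟩ => hy.2
      (by rw [← ft.right y hy.1, ← e, ft.right z (sK hz)]; exact hz)⟩
  have aV : ∀ t, a t ∈ F \ f '' K := fun t => by
    obtain ⟨h1, h2⟩ := (ft.colK _ sdiff_subset _).1 (ha t)
    exact ⟨(bF _).1 h1, fun h => h2.2 ((ft.colK K sK _).1 ((bK _).2 h)).2⟩
  have x0 : (0 : ℂ) ∈ Xo δ := .inl ⟨0, by simpa using he.pos⟩
  have eV : ∀ z ∈ Xo δ, e z ∈ univ \ f '' K := fun z hz => ⟨trivial, fun h => (he' z hz).2 ((bK _).2 h)⟩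
  -- compact sets
  have PN : ∀ y, Φ y = 1 → y ∈ N ∪ col v Φ (PP Φ M) := fun y h =>
    (em (y ∈ M)).imp (@mN y) fun h' => PF ⟨h, h'⟩
  obtain ⟨T₀, hT₀⟩ := Hl33.exists_far hX (oN.union ft.opc) PN
  obtain ⟨T, T6, hT⟩ : ∃ T, 6 ≤ T ∧ T₀ ≤ T := ⟨_, le_max_left _ _, le_max_right _ _⟩
  have cA : IsCompact (N ∪ slab b (Ioo (-T) T))ᶜ := (oN.union (hX.box.isOpen_image
    (isOpen_univ.prod isOpen_Ioo))).isClosed_compl.isCompact
  have sA : (N ∪ slab b (Ioo (-T) T))ᶜ ⊆ col v Φ (PP Φ M) := fun y hy => by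
    refine Or.resolve_left ?_ fun h => hy (.inl h)
    by_cases h : Φ y = 1
    · exact PN y h
    obtain ⟨q, rfl⟩ : y ∈ range b := by rw [hX.rg]; exact h
    exact hT₀ q (hT.trans (not_lt.1 fun h => hy (.inr ⟨q, ⟨trivial, abs_lt.1 h⟩, rfl⟩)))
  have sQ : Q ⊆ col v Φ (PP Φ M) := fun y hy => by
    obtain ⟨σ, hσ, h1⟩ := exists_sg (ar (Φ y))
    obtain ⟨-, a1, a2, a3⟩ := q1 y hy
    obtain ⟨t, b1, b2⟩ := S.free hB hσ c₁ (fun y h => (w₁ y h).1.1) (st y a1).2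
      ⟨fun _ => a2, fun _ => a3⟩ h1 two_pi_pos
    have b3 : ar (Φ y) + ag Φ v y t = 0 := by rw [← sg_sg hσ (_ + _), b1, mul_zero]
    exact ⟨t, ⟨by rw [phi_fl' hv hB.smΦ (exp_ar _).symm, b3, Circle.exp_zero], b2 t right_mem_uIcc⟩,
      hB.seg (exp_ar _).symm (by linarith [(w₁ y (st y a1).1).1.2.2.2])
        (by rw [b3, abs_zero]; exact pi_pos)⟩
  have bk := fun {A : Set Y} (hA : IsCompact A) (h : A ⊆ col v Φ (PP Φ M)) =>
    back hB hX hψ (y := id) (x := f) hA continuousOn_id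
      (fun y hy => (car y (col_ne hv (h hy))).continuousWithinAt) fun y hy => back_col hB hX ft (h hy)
  obtain ⟨D₁, d₁, hD₁⟩ := bk cQ sQ
  obtain ⟨D₂, d₂, hD₂⟩ := bk cA sA
  obtain ⟨D₃, d₃, hD₃⟩ := back hB hX hψ (y := b) (θ := fun q => bt q.2) (x := Prod.fst)
    (isCompact_univ.prod (isCompact_Icc (a := -T) (b := T))) cb.continuousOn
    (continuous_bt.comp continuous_snd).continuousOn fun q _ =>
      (box_go hB hX q.1 q.2 5).imp fun _ h => ⟨h.2.1, h.1⟩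
  have fQ : f '' Q ⊆ F \ f '' K := by
    rintro _ ⟨y, hy, rfl⟩
    exact ⟨ft.maps (sQ hy), fun h => (w₁ y (st y (q1 y hy).2.1).1).2 (fK y (sQ hy) h)⟩
  obtain ⟨E₁, hE₁⟩ := band_conn cu (ft.op.sdiff cK'.isClosed) cV hd aV
    (cQ.image_of_continuousOn (cf.mono sQ)) fQ
  obtain ⟨E₂, hE₂⟩ := band_conn cu ft.op cF hd (fun t => (aV t).1)
    (cA.image_of_continuousOn (cf.mono sA)) (ft.maps.mono_left sA).image_subset
  obtain ⟨E₃, hE₃⟩ := band_conn cu isOpen_univ cR hd (fun _ => trivial) isCompact_univ subset_rfl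
  obtain ⟨E₄, hE₄⟩ := band_conn cu (isOpen_univ.sdiff cK'.isClosed) (rem cR ft.op cK'.isClosed
    (ft.maps.mono_left (sK.trans PF)).image_subset (subset_univ _) cV) hd
    (fun t => ⟨trivial, (aV t).2⟩) isCompact_singleton (singleton_subset_iff.2 (eV 0 x0))
  -- the choice of `k`
  have pC : 0 ≤ 2 * π * C := by positivity
  have := le_abs_self D
  have := le_abs_self E₁
  have := le_abs_self E₂
  have := le_abs_self E₃
  have := le_abs_self E₄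
  have := abs_nonneg D
  have := abs_nonneg E₁
  have := abs_nonneg E₂
  have := abs_nonneg E₃
  have := abs_nonneg E₄
  have := pi_le_four
  have := pi_pos
  obtain ⟨A, hA⟩ : ∃ A, A = 2 * π * C + |D| + D₁ + D₂ + D₃ + |E₁| + |E₂| + |E₃| + |E₄| + 20 := ⟨_, rfl⟩
  refine eventually_atTop.1 ?_
  filter_upwards [ev (sub_pos.2 m56) (2 * A), ev (sub_pos.2 (bt_mono (lt_add_one T))) A,
    ev (sub_pos.2 (bt_mono (show (4 : ℝ) < 9 / 2 by norm_num))) (π + C * (bt (9 / 2) - bt 4)),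
    ev (sub_pos.2 (bt_mono (show (3 : ℝ) < 4 by norm_num))) (π + C * (bt 4 - bt 3)),
    ev one_pos (C + 1)] with k k1 k2 k3 k4 k5
  have k0 : (0 : ℝ) < k := by linarith
  have k6 := mul_neg_of_pos_of_neg k0 z6
  have kb : ∀ {s t : ℝ}, s ≤ t → k * bt s ≤ k * bt t := fun h =>
    mul_le_mul_of_nonneg_left (bt_mono.monotone h) k0.le
  have kar : ∀ {x : ℝ}, |x| ≤ -bt 6 → |-(k * x)| ≤ -(k * bt 6) := fun h => by
    rw [abs_neg, abs_mul, abs_of_pos k0, ← mul_neg]; exact mul_le_mul_of_nonneg_left h k0.le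
  have sm' : SC (ψ * Φ ^ k) := fun y => (hψ y).mul ((hB.smΦ y).pow k)
  have eM : ∀ y, y ∈ M' ↔ y ∈ M ∧ (ψ * Φ ^ k) y = 1 := fun y => (S.meq' y).trans
    (and_congr_right fun h => by simp [hB.one y h, e₀ y (m₀ h)])
  have hB' : Bas o v (ψ * Φ ^ k) M' := ⟨hB.ori, hv, sm', by
    rw [Set.ext eM]; exact hB.cl.inter (isClosed_eq sm'.continuous continuous_const), fun y => by
      rw [rt_mul_pow (hψ y) (hB.smΦ y)]; nlinarith [hC y, hB.nn y], fun y hy => by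
      rw [rt_mul_pow (hψ y) (hB.smΦ y)]
      by_cases h : y ∈ M
      · nlinarith [S.φs y h hy, rt0 y (m₀ h), hB.nn y]
      · nlinarith [hC y, hB.pos y h], fun y h => ((eM y).1 h).2⟩
  have eP : PP (ψ * Φ ^ k) M' = {y | (ψ * Φ ^ k) y = 1} ∩ Mᶜ := Set.ext fun y =>
    and_congr_right fun h => not_congr ((eM y).trans (and_iff_left h))
  have MM : ∀ {y}, y ∉ M → y ∉ M' := fun h h' => h ((eM _).1 h').1
  obtain ⟨μ, hμ⟩ : ∃ μ, μ = -(k * bt 5 + k * bt 6) / 2 := ⟨_, rfl⟩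
  obtain ⟨r₀, r1, r2⟩ : ∃ r₀, u (a 0) = Circle.exp r₀ ∧ |r₀ - μ| ≤ π :=
    ⟨μ + ar (u (a 0) / Circle.exp μ), by simp [Circle.exp_add, exp_ar], by simpa using abs_ar_le _⟩
  obtain ⟨m, hm⟩ : ∃ m : ℤ, |2 * π * m + μ| ≤ π := ⟨-round (μ / (2 * π)), by
    have h := mul_le_mul_of_nonneg_left (abs_sub_round (μ / (2 * π))) two_pi_pos.le
    rw [← abs_of_pos two_pi_pos, ← abs_mul, abs_of_pos two_pi_pos, mul_sub,
      mul_div_cancel₀ _ two_pi_pos.ne'] at h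
    push_cast
    exact (congrArg abs (by ring)).le.trans (h.trans (by linarith))⟩
  rw [abs_le] at r2 hm
  obtain ⟨h, hcol, hh⟩ := new_col (ψ := ψ) hX he (a := 10) (Nat.cast_pos.1 k0) (m := m) (fun θ hθ => by
    rw [mem_Ioo, lt_div_iff₀ k0, div_lt_iff₀ k0]
    constructor <;> linarith [(abs_lt.1 hθ).1, (abs_lt.1 hθ).2]) fun z hz s hs =>
      (hu _ s ⟨by linarith [hs.1], hs.2.le⟩).trans (he' z hz).1
  -- the components
  let ι : R × ℝ → Y × ℝ := fun q => (b (q.1, 5), q.2 + k * bt 5)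
  have cι : Continuous ι := (cb.comp (continuous_fst.prodMk continuous_const)).prodMk (by fun_prop)
  obtain ⟨G, hG⟩ : ∃ G, G = {y | (ψ * Φ ^ k) y = 1} ∩ (Ct v Φ b K ∪ M)ᶜ := ⟨_, rfl⟩
  obtain ⟨P, hP⟩ : ∃ P, P = {y | (ψ * Φ ^ k) y = 1} ∩ Mᶜ := ⟨_, rfl⟩
  have GP : G ⊆ P := by rw [hG, hP]; exact fun y h => ⟨h.1, fun h' => h.2 (.inr h')⟩
  have PM : ∀ y ∈ P, y ∉ M' := by rw [hP]; exact fun y h => MM h.2
  have GM : ∀ y ∈ G, y ∉ M' := fun y h => PM y (GP h)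
  have z1 : MapsTo ι (Bd u (F \ f '' K) (2 * π * C + k * bt 5) (-(k * bt 5))) (Zs (ψ * Φ ^ k) v G) :=
    fun q hq => hG ▸ a_free hB hX hψ hB' hC0 hC ((u5 _).trans hq.2.1) ((bF _).2 hq.1.1)
      (fun h => hq.1.2 ((bK _).1 h)) hq.2.2.1 hq.2.2.2
  have z2 : MapsTo ι (Bd u F (2 * π * C + k * bt 5) (-(k * bt 5))) (Zs (ψ * Φ ^ k) v P) :=
    fun q hq => Zs.mono (by rw [hP]; exact fun y h => ⟨h.1, fun h' => h.2 (.inr h')⟩)
      (a_free (K := ∅) hB hX hψ hB' hC0 hC ((u5 _).trans hq.2.1) ((bF _).2 hq.1)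
        (fun ⟨_, h, _⟩ => h) hq.2.2.1 hq.2.2.2)
  have z3 : MapsTo ι (Bd u univ (2 * π * C - k * bt (T + 1)) (-(k * bt (-(T + 1))) - 2 * π * C))
      (Zs (ψ * Φ ^ k) v P) := fun q hq =>
    hP ▸ a_slab hB hX hψ hB' hC0 hC (by linarith) ((u5 _).trans hq.2.1) hq.2.2.1 hq.2.2.2
  have z4 : MapsTo ι (Bd u (univ \ f '' K) (-(k * bt 6)) (-(k * bt 5))) (Zs (ψ * Φ ^ k) v G) :=
    fun q hq => hG ▸ a_sheet hB hX hψ hB' (fun s hs => (hu _ s hs).trans hq.2.1)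
      (fun h => hq.1.2 ((bK _).1 h)) hq.2.2.1 hq.2.2.2
  obtain ⟨t₀, b1, b2⟩ := z1 (x := (a 0, r₀)) ⟨aV 0, r1, by dsimp only; linarith, by dsimp only; linarith⟩
  obtain ⟨y₀, hy₀⟩ : ∃ y₀, y₀ = fl v t₀ (ι (a 0, r₀)).1 := ⟨_, rfl⟩
  have β : ι (a 0, r₀) ∈ Zs (ψ * Φ ^ k) v (connectedComponentIn G y₀) :=
    ⟨t₀, b1, hy₀ ▸ mem_connectedComponentIn (hy₀ ▸ b2)⟩
  have sG := connectedComponentIn_subset G y₀
  have mG := connectedComponentIn_mono y₀ GP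
  have near : ∀ y ∈ N, y ∈ P → y ∈ connectedComponentIn G y₀ := fun y hy hy' => by
    rw [hP] at hy'
    have yW := (w₁ y (cN (subset_closure hy)).2).1.2.2.2
    obtain ⟨t, a1, a2, a3, a4⟩ := S.into hB hψ oN (cN.trans inter_subset_right) eN
      (show -bt 6 < π by linarith) (fun y h => (w₁ y h).1) hy hy'.2 (lift_one hy'.1 (exp_ar _).symm)
      (fun h => by nlinarith) fun h => by nlinarith
    obtain ⟨q, a5, a6⟩ := q2 _ a2 (cN a1).1
    have a7 := abs_le.1 (a3.trans (add_le_add_left (kar yW) 1))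
    have a8 : Jd (Zs (ψ * Φ ^ k) v G) _ _ := Jd.image ⟨_, pathComponentIn_subset,
      (isPathConnected_pathComponentIn a6.source_mem).isConnected.2,
      mem_pathComponentIn_self a6.source_mem, a6⟩ (f := fun q => (q.1, q.2 + k * ar (Φ q.1)))
      (continuousOn_fst.prodMk (continuousOn_snd.add (continuousOn_const.mul fun q hq =>
        ((car _ fun e => by
          have := (w₁ _ (st _ hq.2.1).1).1.2.2.2
          rw [← coe_exp_pi, Circle.coe_inj] at e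
          rw [e, show ar (Circle.exp π) = π by rw [ar, coe_exp_pi, Complex.arg_neg_one],
            abs_of_pos pi_pos] at this
          linarith).comp continuousAt_fst).continuousWithinAt))) fun q hq => by
        have c1 := w₁ _ (st _ hq.2.1).1
        have c2 := abs_le.1 hq.2.2
        refine hG ▸ S.gam hB hX hψ hB' hC0 hC (Nat.cast_pos.1 k0) c₁
          (fun y h => ⟨(w₁ y h).1.1, (w₁ y h).1.2.2.1⟩) hq.1 c1.1.2.1 (st _ hq.2.1).2 c1.2
          (by linarith [c1.1.2.2.2]) ?_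
        dsimp only at c2
        have : |q.2| ≤ -(k * bt 6) + 1 + D := abs_le.2 ⟨by linarith, by linarith⟩
        linarith
    obtain ⟨c1, c2, c3⟩ := a6.target_mem
    obtain ⟨r', c4, c5, c6⟩ := hD₁ _ a5 q.2 ((w₁ _ (st _ c2).1).1.2.1.trans c1.2.1)
    rw [abs_le] at c3 c4
    dsimp only at c3
    have a9 := spread hB' GM a8 (c6 k _ sm' (spread hB' GM ((hE₁ _ _ r₀ r1 (by linarith) (by linarith)
      _ ⟨_, a5, rfl⟩ r' ((u5 _).symm.trans c5) (by linarith) (by linarith)).image cι.continuousOn z1) β))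
    refine zs_zero hB' (fun y h => GM y (sG h)) (MM hy'.2) (zs_fl hB' (t := t) ?_)
    convert a9 using 2
    rw [ag_mul_pow hv hψ hB.smΦ, a4]
    ring
  have all : P ⊆ connectedComponentIn P y₀ := fun y hy => by
    by_cases h1 : y ∈ N
    · exact mG (near y h1 hy)
    refine zs_zero hB' (fun y h => PM y (connectedComponentIn_subset _ _ h)) (PM y hy) ?_
    rw [hP] at hy
    by_cases h2 : y ∈ slab b (Ioo (-T) T)
    · obtain ⟨q, hq, rfl⟩ := h2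
      obtain ⟨r', c4, c5, c6⟩ := hD₃ q ⟨trivial, Ioo_subset_Icc_self hq.2⟩ _
        (lift_one hy.1 (hX.ang' q.1 q.2))
      have c7 := kb hq.2.1.le
      have c8 := kb hq.2.2.le
      have c9 := kb (show 6 ≤ T + 1 by linarith)
      have c10 := kb (show -(T + 1) ≤ 5 by linarith)
      have c11 : k * bt (-(T + 1)) = k * (-bt (T + 1) - 2 * π) := by rw [bt_neg]
      rw [bt_neg] at c7
      rw [abs_le] at c4
      simpa using c6 k _ sm' (spread hB' PM ((hE₃ _ _ r₀ r1 (by linarith) (by linarith) _ trivial r'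
        ((u5 _).symm.trans c5) (by linarith) (by linarith)).image cι.continuousOn z3) (Zs.mono mG β))
    · have h3 : y ∈ (N ∪ slab b (Ioo (-T) T))ᶜ := fun h => h.elim h1 h2
      obtain ⟨r', c4, c5, c6⟩ := hD₂ y h3 _ (lift_one hy.1 (exp_ar _).symm)
      have c7 := abs_le.1 (kar (((hX.not_slab (by linarith)).1 h2).trans
        (neg_le_neg (bt_mono.monotone T6))))
      rw [abs_le] at c4
      dsimp only [id] at c4
      simpa using c6 k _ sm' (spread hB' PM ((hE₂ _ _ r₀ r1 (by linarith) (by linarith) _ ⟨_, h3, rfl⟩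
        r' ((u5 _).symm.trans c5) (by linarith) (by linarith)).image cι.continuousOn z2) (Zs.mono mG β))
  have eK : P \ (P \ connectedComponentIn G y₀) = connectedComponentIn G y₀ :=
    sdiff_sdiff_cancel_left (sG.trans GP)
  refine ⟨P \ connectedComponentIn G y₀, _, hB', IsClosed.isCompact ?_, ?_, ?_, ?_, hU.trans ?_, hcol,
    fun z hz n hn => ?_⟩
  · refine isOpen_compl_iff.1 (isOpen_iff_mem_nhds.2 fun y hy => ?_)
    by_cases h1 : y ∈ N
    · filter_upwards [oN.mem_nhds h1] with z hz h using h.2 (near z hz h.1)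
    by_cases h2 : (ψ * Φ ^ k) y = 1
    · have h3 : y ∈ connectedComponentIn G y₀ := by_contra fun h =>
        hy ⟨hP ▸ ⟨h2, fun h => h1 (mN h)⟩, h⟩
      rw [hG] at h3
      filter_upwards [comp_open hB' (cC.isClosed.union hB.cl).isOpen_compl
        (fun y h => MM fun h' => h (.inr h')) h3] with z hz h using h.2 (hG ▸ hz (hP ▸ h.1).1)
    · filter_upwards [(isOpen_ne_fun sm'.continuous continuous_const).mem_nhds h2] with z hz h
        using hz (hP ▸ h.1).1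
  · rw [eP, ← hP]; exact sdiff_subset
  · rw [eP, ← hP, Subset.antisymm all (connectedComponentIn_subset _ _)]
    exact isPreconnected_connectedComponentIn
  · rw [eP, ← hP, eK]; exact isPreconnected_connectedComponentIn
  · exact ctl hB hX hψ hB' hC0 hC sK (fun y h => ⟨hP ▸ ⟨h.1, CM y h.2⟩,
      fun h' => (hG ▸ sG h').2 (.inl h.2)⟩) (by linarith) (by linarith) (by linarith)
  · rw [eP, ← hP, eK]
    obtain ⟨a1, a2⟩ := hh _ hn
    have a3 := abs_lt.1 hn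
    have a4 : Circle.exp (-(2 * π * n + 2 * π * m)) = 1 := by
      rw [← Circle.exp_zero]; exact Circle.exp_eq_exp.2 ⟨-(n + m), by push_cast; ring⟩
    have a5 : Jd (Bd u (univ \ f '' K) (-(k * bt 6)) (-(k * bt 5))) (e z, -(2 * π * n + 2 * π * m))
        (e 0, -(2 * π * n + 2 * π * m)) := ⟨(fun z => (e z, -(2 * π * n + 2 * π * m))) '' Xo δ, by
      rintro _ ⟨w, hw, rfl⟩
      exact ⟨eV w hw, (he' w hw).1.trans a4.symm, by dsimp only; linarith, by dsimp only; linarith⟩,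
      (xo_conn he.pos).image _ ((Hd34.contOn he).prodMk continuousOn_const), ⟨z, hz, rfl⟩, 0, x0, rfl⟩
    have a6 := spread hB' GM ((a5.trans (hE₄ _ _ r₀ r1 (by linarith) (by linarith) _ rfl _
      ((he' 0 x0).1.trans a4.symm) (by linarith) (by linarith))).image cι.continuousOn z4) β
    obtain ⟨t, c1, c2, c3⟩ := box_go hB hX (e z) (h (2 * π * n)) 5
    have c4 := ag_eq_zero hv hψ (T := t) fun s hs => by
      obtain ⟨r, d1, d2⟩ := c3 s hs
      rw [uIcc_of_ge a1.1.le] at d1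
      rw [d2, hu _ r ⟨by linarith [d1.1], d1.2.trans a1.2.le⟩, hu _ _ ⟨by linarith [a1.1], a1.2.le⟩]
    refine zs_zero hB' (fun y h => GM y (sG h)) (MM (hX.notMem hB _)) (zs_fl hB' (t := t) ?_)
    convert a6 using 2
    rw [ag_mul_pow hv hψ hB.smΦ, c4]
    linear_combination k * c2 - a2

theorem bandStmt : BandStmt := band (Hl33.footStmt Box46.trk) Hl33.slabStmt

end Crest.Agent.X212.Hel40
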