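import Crest.Agent.X212.Hel40.Ang

/-!
# X212/Hel40/Cov (helper40): bands in the cyclic cover of a surface
-/

set_option autoImplicit false
set_option linter.unusedSectionVars false

open Set Filter Topology Function Real

noncomputable section

namespace Crest.Agent.X212.Hel40

/-- first exit from an open set -/
theorem first_exit {X : Type*} [TopologicalSpace X] {γ : ℝ → X} (hγ : Continuous γ) {N : Set X}
    (hN : IsOpen N) (h0 : γ 0 ∈ N) {T : ℝ} (hT : 0 ≤ T) (h1 : γ T ∉ N) :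
    ∃ t ∈ Ioc 0 T, γ t ∉ N ∧ (∀ s ∈ Ico 0 t, γ s ∈ N) ∧ ∀ s ∈ Icc 0 t, γ s ∈ closure N := by
  have hc : IsClosed (Icc 0 T ∩ γ ⁻¹' Nᶜ) := isClosed_Icc.inter (hN.isClosed_compl.preimage hγ)
  have hb : BddBelow (Icc 0 T ∩ γ ⁻¹' Nᶜ) := ⟨0, fun _ h => h.1.1⟩
  have hm := hc.csInf_mem ⟨T, ⟨hT, le_rfl⟩, h1⟩ hb
  have hp : 0 < sInf (Icc 0 T ∩ γ ⁻¹' Nᶜ) := hm.1.1.lt_of_ne fun e => hm.2 (e ▸ h0)
  have h2 : ∀ s ∈ Ico 0 (sInf (Icc 0 T ∩ γ ⁻¹' Nᶜ)), γ s ∈ N := fun s hs => by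
    by_contra hn
    exact hs.2.not_ge (csInf_le hb ⟨⟨hs.1, hs.2.le.trans hm.1.2⟩, hn⟩)
  refine ⟨_, ⟨hp, hm.1.2⟩, hm.2, h2, fun s hs => ?_⟩
  rw [← closure_Ico hp.ne] at hs
  exact map_mem_closure hγ hs h2

theorem xo_conn {δ : ℝ} (hδ : 0 < δ) : IsPreconnected (Xo δ) := by
  have c1 : ∀ n : ℤ, IsPreconnected {z : ℂ | |z.re - n| < δ} := fun n => by
    simp only [abs_lt, lt_sub_iff_add_lt, sub_lt_iff_lt_add]
    exact ((convex_halfSpace_re_gt _).inter (convex_halfSpace_re_lt _)).isPreconnected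
  have c2 : ∀ n : ℤ, IsPreconnected {z : ℂ | |z.im - n| < δ} := fun n => by
    simp only [abs_lt, lt_sub_iff_add_lt, sub_lt_iff_lt_add]
    exact ((convex_halfSpace_im_gt _).inter (convex_halfSpace_im_lt _)).isPreconnected
  have c3 : ∀ m n : ℤ, IsPreconnected ({z : ℂ | |z.re - m| < δ} ∪ {z : ℂ | |z.im - n| < δ}) :=
    fun m n => (c1 m).union ⟨m, n⟩ (by simpa using hδ) (by simpa using hδ) (c2 n)
  refine isPreconnected_of_forall 0 ?_
  rintro z (⟨n, h⟩ | ⟨n, h⟩)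
  · exact ⟨_, fun w hw => hw.imp (⟨n, ·⟩) (⟨0, ·⟩), .inr (by simpa using hδ), .inl h, c3 n 0⟩
  · exact ⟨_, fun w hw => hw.imp (⟨0, ·⟩) (⟨n, ·⟩), .inl (by simpa using hδ), .inr h, c3 0 n⟩

variable {X : Type*} [TopologicalSpace X] {u : X → Circle} {V : Set X} {D D' : ℝ} {x y z : X}

/-- a band in the cover over `V` -/
def Bd (u : X → Circle) (V : Set X) (lo hi : ℝ) : Set (X × ℝ) :=
  {q | q.1 ∈ V ∧ u q.1 = Circle.exp q.2 ∧ lo ≤ q.2 ∧ q.2 ≤ hi}

theorem Bd.mono {lo hi lo' hi' : ℝ} (h : lo' ≤ lo) (h' : hi ≤ hi') : Bd u V lo hi ⊆ Bd u V lo' hi' :=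
  fun _ a => ⟨a.1, a.2.1, h.trans a.2.2.1, a.2.2.2.trans h'⟩

/-- joined in a set -/
def Jd {Z : Type*} [TopologicalSpace Z] (B : Set Z) (p q : Z) : Prop :=
  ∃ A ⊆ B, IsPreconnected A ∧ p ∈ A ∧ q ∈ A

theorem Jd.mono {Z : Type*} [TopologicalSpace Z] {B B' : Set Z} {p q : Z} (h : Jd B p q)
    (hB : B ⊆ B') : Jd B' p q := let ⟨A, a, b⟩ := h; ⟨A, a.trans hB, b⟩

theorem Jd.trans {Z : Type*} [TopologicalSpace Z] {B : Set Z} {p q r : Z} (h : Jd B p q)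
    (h' : Jd B q r) : Jd B p r :=
  let ⟨_, a1, a2, a3, a4⟩ := h
  let ⟨_, b1, b2, b3, b4⟩ := h'
  ⟨_, union_subset a1 b1, a2.union q a4 b3 b2, .inl a3, .inr b4⟩

theorem Jd.right {Z : Type*} [TopologicalSpace Z] {B : Set Z} {p q : Z} (h : Jd B p q) : q ∈ B :=
  let ⟨_, a1, _, _, a4⟩ := h; a1 a4

/-- every lift of `x` is joined to a lift of `y` in a band of width `D` -/
def Rl (u : X → Circle) (V : Set X) (D : ℝ) (x y : X) : Prop :=
  ∀ r, u x = Circle.exp r → ∃ r', Jd (Bd u V (r - D) (r + D)) (x, r) (y, r')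

theorem Rl.mono (h : Rl u V D x y) (hD : D ≤ D') : Rl u V D' x y := fun r hr =>
  let ⟨r', a⟩ := h r hr; ⟨r', a.mono (Bd.mono (by linarith) (by linarith))⟩

theorem Rl.trans (h : Rl u V D x y) (h' : Rl u V D' y z) : Rl u V (D + D') x z := fun r hr => by
  obtain ⟨r', a⟩ := h r hr
  obtain ⟨-, a1, a2, a3⟩ := a.right
  obtain ⟨r'', c⟩ := h' r' a1
  obtain ⟨-, -, c2, c3⟩ := c.right
  dsimp only at a2 a3 c2 c3
  exact ⟨r'', (a.mono (Bd.mono (by linarith) (by linarith))).trans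
    (c.mono (Bd.mono (by linarith) (by linarith)))⟩

theorem rl_loc [LocallyConnectedSpace X] (hu : Continuous u) (hV : IsOpen V) (hx : x ∈ V) :
    ∃ N ∈ 𝓝 x, ∀ y ∈ N, ∀ z ∈ N, Rl u V (2 * π) y z := by
  have h1 : V ∩ {y | ((u y / u x : Circle) : ℂ) ≠ -1} ∈ 𝓝 x :=
    (hV.inter (isOpen_ne_fun (continuous_subtype_val.comp (hu.div' continuous_const))
      continuous_const)).mem_nhds ⟨hx, show ((u x / u x : Circle) : ℂ) ≠ -1 by simp; norm_num⟩
  obtain ⟨N, hN, hc, hs⟩ := locallyConnectedSpace_iff_connected_subsets.1 inferInstance x _ h1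
  have hl : ContinuousOn (fun y => ar (u y / u x)) N := fun y hy =>
    ((continuousAt_ar (hs hy).2).comp (f := fun y => u y / u x)
      (hu.div' continuous_const).continuousAt).continuousWithinAt
  refine ⟨N, hN, fun y hy z hz r hr => ⟨r + (ar (u z / u x) - ar (u y / u x)),
    (fun w => (w, r + (ar (u w / u x) - ar (u y / u x)))) '' N, ?_,
    hc.image _ (continuousOn_id.prodMk (continuousOn_const.add (hl.sub continuousOn_const))),
    ⟨y, hy, by simp⟩, z, hz, rfl⟩⟩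
  rintro _ ⟨w, hw, rfl⟩
  have h2 := abs_le.1 (abs_ar_le (u w / u x))
  have h3 := abs_le.1 (abs_ar_le (u y / u x))
  refine ⟨(hs hw).1, ?_, by dsimp only; linarith, by dsimp only; linarith⟩
  simp only [Circle.exp_add, Circle.exp_sub, exp_ar, ← hr]
  simp

theorem rl_cpt [LocallyConnectedSpace X] (hu : Continuous u) (hV : IsOpen V) (cV : IsPreconnected V)
    (hy : y ∈ V) {C : Set X} (hC : IsCompact C) (hCV : C ⊆ V) : ∃ D, ∀ x ∈ C, Rl u V D x y := by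
  have h1 : ∀ x ∈ V, ∃ D, Rl u V D x y := fun x hx =>
    cV.induction₂' (fun x y => ∃ D, Rl u V D x y) (fun x hx => by
      obtain ⟨N, hN, h⟩ := rl_loc hu hV hx
      filter_upwards [mem_nhdsWithin_of_mem_nhds hN] with z hz
      exact ⟨⟨_, h x (mem_of_mem_nhds hN) z hz⟩, _, h z hz x (mem_of_mem_nhds hN)⟩)
      (fun _ _ _ _ _ _ ⟨_, a⟩ ⟨_, b⟩ => ⟨_, a.trans b⟩) hx hy
  refine hC.induction_on (p := fun s => ∃ D, ∀ x ∈ s, Rl u V D x y) ⟨0, by simp⟩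
    (fun s t hst ⟨D, h⟩ => ⟨D, fun x hx => h x (hst hx)⟩)
    (fun s t ⟨D, h⟩ ⟨D', h'⟩ => ⟨max D D', fun x hx => hx.elim
      (fun a => (h x a).mono (le_max_left _ _)) fun a => (h' x a).mono (le_max_right _ _)⟩)
    fun x hx => ?_
  obtain ⟨N, hN, h⟩ := rl_loc hu hV (hCV hx)
  obtain ⟨D, hD⟩ := h1 x (hCV hx)
  exact ⟨N, mem_nhdsWithin_of_mem_nhds hN, _, fun z hz => (h z hz x (mem_of_mem_nhds hN)).trans hD⟩

theorem helix {a : ℝ → X} (h : Dual u a) (hV : ∀ t, a t ∈ V) : ∃ D, ∀ r r', u (a 0) = Circle.exp r →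
    u (a 0) = Circle.exp r' → Jd (Bd u V (min r r' - D) (max r r' + D)) (a 0, r) (a 0, r') := by
  obtain ⟨hc, hp, l, lc, le, lp⟩ := h
  have p1 : Periodic (fun t => l t - 2 * π * t) 1 := fun t => by simp only [lp]; ring
  obtain ⟨D, hD⟩ := (p1.isBounded_of_continuous one_ne_zero (by fun_prop)).exists_norm_le
  have h1 : ∀ t, |l t - 2 * π * t| ≤ D := fun t => hD _ ⟨t, rfl⟩
  have h2 : ∀ r, u (a 0) = Circle.exp r → ∃ n : ℤ, (a n, l n) = (a 0, r) := fun r hr => by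
    obtain ⟨n, hn⟩ := Circle.exp_eq_exp.1 (hr.symm.trans (le 0))
    have e1 := (show Periodic a 1 from hp).int_mul_eq n
    have e2 := p1.int_mul_eq n
    simp only [mul_one, mul_zero] at e1 e2
    exact ⟨n, Prod.ext e1 (by dsimp only; linarith)⟩
  refine ⟨2 * D, fun r r' hr hr' => ?_⟩
  obtain ⟨n, hn⟩ := h2 r hr
  obtain ⟨n', hn'⟩ := h2 r' hr'
  refine ⟨(fun t => (a t, l t)) '' uIcc (n : ℝ) n', ?_,
    isPreconnected_uIcc.image _ (hc.prodMk lc).continuousOn, ⟨_, left_mem_uIcc, hn⟩,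
    _, right_mem_uIcc, hn'⟩
  rintro _ ⟨t, ht, rfl⟩
  obtain rfl : l n = r := congrArg Prod.snd hn
  obtain rfl : l n' = r' := congrArg Prod.snd hn'
  have k1 := abs_le.1 (h1 t)
  have k2 := abs_le.1 (h1 n)
  have k3 := abs_le.1 (h1 n')
  have m1 := min_le_left (l n) (l n')
  have m2 := min_le_right (l n) (l n')
  have m3 := le_max_left (l n) (l n')
  have m4 := le_max_right (l n) (l n')
  have := pi_pos
  refine ⟨hV t, le t, ?_, ?_⟩ <;> rcases mem_uIcc.1 ht with k | k <;> dsimp only <;> nlinarith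

/-- **bands**: lifts of points of a compact set are joined to the base point in every wide band -/
theorem band_conn [LocallyConnectedSpace X] (hu : Continuous u) (hV : IsOpen V)
    (cV : IsPreconnected V) {a : ℝ → X} (h : Dual u a) (ha : ∀ t, a t ∈ V) {C : Set X}
    (hC : IsCompact C) (hCV : C ⊆ V) : ∃ D, ∀ lo hi r₀, u (a 0) = Circle.exp r₀ → lo + D ≤ r₀ →
      r₀ + D ≤ hi → ∀ x ∈ C, ∀ r, u x = Circle.exp r → lo + D ≤ r → r + D ≤ hi →
      Jd (Bd u V lo hi) (x, r) (a 0, r₀) := by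
  obtain ⟨D, hD⟩ := rl_cpt hu hV cV (ha 0) hC hCV
  obtain ⟨D', hD'⟩ := helix h ha
  refine ⟨|D| + |D'|, fun lo hi r₀ h0 h1 h2 x hx r hr h3 h4 => ?_⟩
  obtain ⟨r', a1⟩ := hD x hx r hr
  obtain ⟨-, a2, a3, a4⟩ := a1.right
  dsimp only at a2 a3 a4
  have := le_abs_self D
  have := le_abs_self D'
  have := abs_nonneg D
  have := abs_nonneg D'
  refine (a1.mono (Bd.mono (by linarith) (by linarith))).trans ((hD' r' r₀ a2 h0).mono (Bd.mono ?_ ?_))
  · rcases min_choice r' r₀ with e | e <;> rw [e] <;> linarith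
  · rcases max_choice r' r₀ with e | e <;> rw [e] <;> linarith

end Crest.Agent.X212.Hel40
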