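import Crest.Agent.X212.Hel40.Nr

/-!
# X212/Hel40/Fw (helper40): lifted points which reach the new middle surface
-/

set_option autoImplicit false
set_option linter.unusedSectionVars false

open Set Filter Topology Function Real
open scoped ContDiff Manifold
open Crest.Agent.X212.Dr59 Crest.Agent.X212.Cyl58
open Crest.Agent.X212.Sep15 (EE IR CM Box slab px Rg)
open Crest.Agent.X212.Bb31 (Fm)
open Crest.Agent.X212.Flo26 (SmV fl)

noncomputable section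

namespace Crest.Agent.X212.Hel40

variable {Y : CM 3} {R : CM 2} {o : Fm 3 Y} {v : Vf Y} {Φ ψ : Y → Circle} {M M' K O W : Set Y}
  {σ : ℝ} {oR : Fm 2 R} {b : R × ℝ → Y} {C : ℝ} {k : ℕ}

/-- the controlled part -/
def Ct (v : Vf Y) (Φ : Y → Circle) (b : R × ℝ → Y) (K : Set Y) : Set Y :=
  slab b (Icc (-(9 / 2)) (9 / 2)) ∪ col v Φ K

theorem c5 : 0 < -bt 5 ∧ -bt 5 < π := ⟨neg_pos.2 (bt_mem 5).2, neg_lt.1 (bt_gt (by norm_num))⟩

theorem lift_eq {y : Y} {r θ : ℝ} (hr : ψ y = Circle.exp r) (hθ : Φ y = Circle.exp θ) :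
    (ψ * Φ ^ k) y = Circle.exp (r + k * θ) := by
  rw [Pi.mul_apply, Pi.pow_apply, hr, hθ, Circle.exp_add, Circle.exp_natCast_mul]

theorem lift_one {y : Y} {θ : ℝ} (h : (ψ * Φ ^ k) y = 1) (hθ : Φ y = Circle.exp θ) :
    ψ y = Circle.exp (-(k * θ)) := by
  rw [Pi.mul_apply, Pi.pow_apply, hθ, ← Circle.exp_natCast_mul] at h
  rw [Circle.exp_neg, eq_inv_of_mul_eq_one_left h]

theorem Ct.cpt (hB : Bas o v Φ M) (hX : Bx o v Φ oR b) (hK : K ⊆ PP Φ M) (hc : IsCompact K) :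
    IsCompact (Ct v Φ b K) := by
  have h := (hX.cpt (-(9 / 2)) (9 / 2)).union (hB.col_compact hK hc (c := -bt (9 / 2))
    (neg_lt.1 (bt_gt (by norm_num))))
  convert h using 1
  refine Subset.antisymm ?_ (union_subset_union_right _ fun y h => h.1)
  rintro y (hy | hy)
  · exact .inl hy
  · by_cases h1 : y ∈ slab b (Ioo (-(9 / 2)) (9 / 2))
    · exact .inl (image_mono (prod_mono_right Ioo_subset_Icc_self) h1)
    · exact .inr ⟨hy, (hX.not_slab (by norm_num)).1 h1⟩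

theorem exists_C (hB : Bas o v Φ M) (hψ : SC ψ) (h : ∀ᶠ y in 𝓝ˢ M, 0 ≤ rt ψ v y) :
    ∃ C ≥ (0 : ℝ), ∀ y, 0 ≤ rt ψ v y + C * rt Φ v y := by
  obtain ⟨N, hN, h1, h2⟩ := eventually_nhdsSet_iff_exists.1 h
  obtain ⟨m, hm, h3⟩ := hN.isClosed_compl.isCompact.exists_forall_le' (a := 0)
    (continuous_rt hB.smv hB.smΦ).continuousOn fun y hy => hB.pos y fun e => hy (h1 e)
  obtain ⟨B, h4⟩ := isCompact_univ.exists_bound_of_continuousOn (continuous_rt hB.smv hψ).continuousOn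
  refine ⟨|B| / m, by positivity, fun y => ?_⟩
  by_cases hy : y ∈ N
  · exact add_nonneg (h2 y hy) (mul_nonneg (by positivity) (hB.nn y))
  · have h5 := mul_le_mul_of_nonneg_left (h3 y hy) (show 0 ≤ |B| / m by positivity)
    rw [div_mul_cancel₀ _ hm.ne'] at h5
    linarith [(abs_le.1 (h4 y trivial)).1, le_abs_self B]

theorem back (hB : Bas o v Φ M) (hX : Bx o v Φ oR b) (hψ : SC ψ) {X : Type*} [TopologicalSpace X]
    {y : X → Y} {θ : X → ℝ} {x : X → R} {A : Set X} (hA : IsCompact A) (hy : ContinuousOn y A)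
    (hθ : ContinuousOn θ A)
    (h : ∀ p ∈ A, ∃ T, θ p + ag Φ v (y p) T = bt 5 ∧ fl v T (y p) = b (x p, 5)) :
    ∃ D ≥ (0 : ℝ), ∀ p ∈ A, ∀ r, ψ (y p) = Circle.exp r → ∃ r', |r' - r| ≤ D ∧
      ψ (b (x p, 5)) = Circle.exp r' ∧ ∀ (k : ℕ) G, SC (ψ * Φ ^ k) →
        (b (x p, 5), r' + k * bt 5) ∈ Zs (ψ * Φ ^ k) v G → (y p, r + k * θ p) ∈ Zs (ψ * Φ ^ k) v G := by
  obtain ⟨D, hD⟩ := bnd hB hψ hA hy (θ := fun p => θ p - bt 5) (hθ.sub continuousOn_const)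
    (P := fun p z => z = b (x p, 5)) fun p hp => by
      obtain ⟨T, a1, a2⟩ := h p hp
      exact ⟨T, by linarith, a2 ▸ hX.notMem hB _, a2⟩
  refine ⟨|D|, abs_nonneg _, fun p hp r hr => ?_⟩
  obtain ⟨T, a1, a2, a3⟩ := hD p hp
  refine ⟨r + ag ψ v (y p) T, by rw [add_sub_cancel_left]; exact a3.trans (le_abs_self _),
    a2 ▸ phi_fl' hB.smv hψ hr T, fun k G hk ⟨s, h1, h2⟩ => ⟨s + T, ?_, ?_⟩⟩
  · rw [ag_add hB.smv hk, ag_mul_pow hB.smv hψ hB.smΦ, a2]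
    dsimp only at h1 ⊢
    linear_combination h1 + k * a1
  · rw [fl_add hB.smv, a2]; exact h2

theorem back_col (hB : Bas o v Φ M) (hX : Bx o v Φ oR b) {F : Set R} {f : Y → R} {p : R → Y}
    (ft : Ft v Φ M b 1 F f p) {y : Y} (hy : y ∈ col v Φ (PP Φ M)) :
    ∃ T, ar (Φ y) + ag Φ v y T = bt 5 ∧ fl v T y = b (f y, 5) := by
  have h0 : |bt 5| < π := abs_lt.2 ⟨by linarith [c5.2], by linarith [c5.1, pi_pos]⟩
  obtain ⟨T, h⟩ := hB.col_reach subset_rfl hy h0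
  obtain ⟨x, s, a1, a2⟩ := hX.of_ang (phi_fl' hB.smv hB.smΦ (exp_ar _).symm T)
    (h ▸ (bt_mem 5).1) (h ▸ (bt_mem 5).2)
  obtain rfl := bt_mono.injective (a2.trans h)
  have := (ft.flow y hy T (hB.seg (exp_ar _).symm (abs_ar_lt (col_ne hB.smv hy)) (h ▸ h0))).2
  rw [a1, ft.box x 5 (by norm_num)] at this
  exact ⟨T, h, this ▸ a1⟩

variable (hB : Bas o v Φ M) (hX : Bx o v Φ oR b) (hψ : SC ψ) (hB' : Bas o v (ψ * Φ ^ k) M')
include hB hX hψ hB'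

theorem fw (hσ : σ = 1 ∨ σ = -1) {y : Y} {r T : ℝ} (hr : ψ y = Circle.exp r) (hK : y ∉ col v Φ K)
    (h1 : |ar (Φ y)| ≤ -bt 5) (h2 : |ar (Φ y) + ag Φ v y T| ≤ -bt 5)
    (hM : ∀ t ∈ uIcc 0 T, fl v t y ∉ M) (a1 : σ * (r + k * ar (Φ y)) ≤ 0)
    (a2 : 0 ≤ σ * (r + ag ψ v y T + k * (ar (Φ y) + ag Φ v y T))) :
    (y, r + k * ar (Φ y)) ∈ Zs (ψ * Φ ^ k) v ({y | (ψ * Φ ^ k) y = 1} ∩ (Ct v Φ b K ∪ M)ᶜ) := by
  refine cross hB' (t₁ := 0) (t₂ := T) (lift_eq hr (exp_ar _).symm) hσ (by rwa [ag_zero, add_zero])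
    (by rw [ag_mul_pow hB.smv hψ hB.smΦ]; linarith) fun t ht => ?_
  have h3 := (ag_mono hB.smv hB.smΦ hB.nn y).mapsTo_uIcc ht
  rw [ag_zero] at h3
  have h4 : |ar (Φ y) + ag Φ v y t| ≤ -bt 5 := by
    rw [abs_le] at h1 h2 ⊢
    rcases mem_uIcc.1 h3 with h | h <;> constructor <;> linarith [h.1, h.2]
  rintro ((h | h) | h)
  · refine (hX.not_slab (c := 5) (by norm_num)).2 ?_
      (image_mono (prod_mono_right (Icc_subset_Ioo (by norm_num) (by norm_num))) h)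
    rwa [phi_fl' hB.smv hB.smΦ (exp_ar _).symm, ar_exp (h4.trans_lt c5.2)]
  · exact hK (col_of_fl hB.smv h (hB.seg (exp_ar _).symm (h1.trans_lt c5.2) (h4.trans_lt c5.2)))
  · exact hM t ht h

theorem a_sheet {x : R} {r : ℝ} (hr : ∀ s ∈ Icc (4 : ℝ) 6, ψ (b (x, s)) = Circle.exp r)
    (hK : b (x, 5) ∉ col v Φ K) (h1 : -(k * bt 6) ≤ r) (h2 : r ≤ -(k * bt 5)) :
    (b (x, 5), r + k * bt 5) ∈ Zs (ψ * Φ ^ k) v ({y | (ψ * Φ ^ k) y = 1} ∩ (Ct v Φ b K ∪ M)ᶜ) := by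
  obtain ⟨T, -, a2, a3⟩ := box_go hB hX x 5 6
  have e := hX.ar_pos x (s := 5) (by norm_num)
  have h5 := hr 5 (by norm_num)
  have e0 := ag_eq_zero hB.smv hψ (T := T) fun t ht => by
    obtain ⟨s, b1, b2⟩ := a3 t ht
    rw [uIcc_of_le (by norm_num)] at b1
    rw [b2, h5, hr s ⟨by linarith [b1.1], b1.2⟩]
  rw [← e]
  refine fw hB hX hψ hB' (T := T) (.inl rfl) h5 hK (by rw [e, abs_of_neg (bt_mem 5).2])
    (by rw [e, a2, abs_of_neg (bt_mem 6).2, neg_le_neg_iff]; exact bt_mono.monotone (by norm_num))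
    (fun t ht => ?_) (by rw [e]; linarith) (by rw [e, a2, e0]; linarith)
  obtain ⟨s, -, b2⟩ := a3 t ht
  exact b2 ▸ hX.notMem hB _

/-- the second kind of good points near the plateau -/
theorem fwB (hσ : σ = 1 ∨ σ = -1) {y : Y} {r : ℝ} (hr : ψ y = Circle.exp r) (hK : y ∉ col v Φ K)
    (h1 : |ar (Φ y)| ≤ -bt 5) (hS : Stay v Φ y W) (hW : ∀ y ∈ W, 0 ≤ rt ψ v y) (hk : 0 < k)
    (a1 : σ * (r + k * ar (Φ y)) ≤ 0) (a2 : 0 < σ * r) :
    (y, r + k * ar (Φ y)) ∈ Zs (ψ * Φ ^ k) v ({y | (ψ * Φ ^ k) y = 1} ∩ (Ct v Φ b K ∪ M)ᶜ) := by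
  have k0 : (0 : ℝ) < k := Nat.cast_pos.2 hk
  have c0 : -(σ * r) / k < 0 := div_neg_of_neg_of_pos (by linarith) k0
  have h2 := (abs_le.1 ((abs_sg hσ _).le.trans h1)).1
  have ne : ∀ x, σ * ar (Φ y) ≤ x → x < 0 → Circle.exp (σ * x) ≠ 1 := fun x b1 b2 =>
    exp_ne_one (fun e => b2.ne (by rw [← sg_sg hσ x, e, mul_zero]))
      (by rw [abs_sg hσ, abs_of_neg b2]; linarith [c5.2, pi_pos])
  obtain ⟨s, hs, e⟩ := hB.reach hσ (exp_ar _).symm (c := -(σ * r) / k)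
    (by rw [le_div_iff₀ k0]; linarith) fun x hx => ne x hx.1 (hx.2.trans_lt c0)
  have h3 := sg_mono hσ hB.smv hB.smΦ hs hψ (C := 0) fun t ht => by
    simpa using hW _ (hS.seg hB hσ (e ▸ c0.le) t ht)
  have h4 := hB.mono hσ y hs
  simp only [mul_zero, ag_zero] at h4
  refine fw hB hX hψ hB' (T := σ * s) hσ hr hK h1 ?_ (fun t ht hm => ?_) a1 ?_
  · rw [← abs_sg hσ, abs_of_neg (e ▸ c0)]; linarith
  · have b1 := mem_sg hσ hs ht
    have b2 := hB.mono hσ y b1.1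
    have b3 := hB.mono hσ y b1.2
    simp only [mul_zero, ag_zero, sg_sg hσ] at b2 b3
    refine ne (σ * (ar (Φ y) + ag Φ v y t)) (by linarith) (by linarith) ?_
    rw [sg_sg hσ, ← phi_fl' hB.smv hB.smΦ (exp_ar _).symm, hB.one _ hm]
  · have : k * (σ * (ar (Φ y) + ag Φ v y (σ * s))) = -(σ * r) := by rw [e]; field_simp
    linarith

variable (hC0 : 0 ≤ C) (hC : ∀ y, 0 ≤ rt ψ v y + C * rt Φ v y)
include hC0 hC

theorem fwA (hσ : σ = 1 ∨ σ = -1) {y : Y} {r T : ℝ} (hr : ψ y = Circle.exp r) (hK : y ∉ col v Φ K)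
    (h1 : |ar (Φ y)| ≤ -bt 5) (h1' : σ * ar (Φ y) < -bt 5)
    (h2 : σ * (ar (Φ y) + ag Φ v y T) = -bt 5) (hM : ∀ t ∈ uIcc 0 T, fl v t y ∉ M)
    (a1 : σ * (r + k * ar (Φ y)) ≤ 0) (a2 : 2 * π * C + k * bt 5 ≤ σ * r) :
    (y, r + k * ar (Φ y)) ∈ Zs (ψ * Φ ^ k) v ({y | (ψ * Φ ^ k) y = 1} ∩ (Ct v Φ b K ∪ M)ᶜ) := by
  have h3 := gain hB hψ hC hσ (y := y) (T := T) (by linarith)
  have h4 := (abs_le.1 ((abs_sg hσ _).le.trans h1)).1
  have h5 := mul_le_mul_of_nonneg_left (show σ * ag Φ v y T ≤ 2 * π by linarith [c5.2]) hC0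
  refine fw hB hX hψ hB' hσ hr hK h1 (by rw [← abs_sg hσ, h2, abs_of_pos c5.1]) hM a1 ?_
  have : k * (σ * (ar (Φ y) + ag Φ v y T)) = k * -bt 5 := by rw [h2]
  linarith

theorem a_free {x : R} {r : ℝ} (hr : ψ (b (x, 5)) = Circle.exp r) (hF : b (x, 5) ∈ col v Φ (PP Φ M))
    (hK : b (x, 5) ∉ col v Φ K) (h1 : 2 * π * C + k * bt 5 ≤ r) (h2 : r ≤ -(k * bt 5)) :
    (b (x, 5), r + k * bt 5) ∈ Zs (ψ * Φ ^ k) v ({y | (ψ * Φ ^ k) y = 1} ∩ (Ct v Φ b K ∪ M)ᶜ) := by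
  have e := hX.ar_pos x (s := 5) (by norm_num)
  have h0 : |-bt 5| < π := by rw [abs_of_pos c5.1]; exact c5.2
  obtain ⟨T, h⟩ := hB.col_reach subset_rfl hF h0
  have sg := hB.seg (exp_ar _).symm (abs_ar_lt (col_ne hB.smv hF)) (h ▸ h0)
  rw [← e]
  exact fwA hB hX hψ hB' hC0 hC (T := T) (.inl rfl) hr hK (by rw [e, abs_of_neg (bt_mem 5).2])
    (by rw [e]; linarith [c5.1]) (by linarith) (fun t ht => hB.col_notMem subset_rfl
      (col_fl hB.smv hF fun s hs => sg s (uIcc_subset_uIcc_left ht hs))) (by rw [e]; linarith)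
    (by linarith)

theorem a_slab {x : R} {r T : ℝ} (hT : 5 < T) (hr : ψ (b (x, 5)) = Circle.exp r)
    (h1 : 2 * π * C - k * bt T ≤ r) (h2 : r ≤ -(k * bt (-T)) - 2 * π * C) :
    (b (x, 5), r + k * bt 5) ∈ Zs (ψ * Φ ^ k) v ({y | (ψ * Φ ^ k) y = 1} ∩ Mᶜ) := by
  obtain ⟨t₁, -, a2, a3⟩ := box_go hB hX x 5 (-T)
  obtain ⟨t₂, -, b2, b3⟩ := box_go hB hX x 5 T
  have m1 := bt_mono hT
  have m2 := bt_mono (show -T < 5 by linarith)
  have g1 := gain hB hψ hC (.inr rfl) (y := b (x, 5)) (T := t₁) (by linarith)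
  have g2 := gain hB hψ hC (.inl rfl) (y := b (x, 5)) (T := t₂) (by linarith)
  have l1 := mul_le_mul_of_nonneg_left (show -1 * ag Φ v (b (x, 5)) t₁ ≤ 2 * π by
    linarith [(bt_mem 5).2, (bt_mem (-T)).1]) hC0
  have l2 := mul_le_mul_of_nonneg_left (show 1 * ag Φ v (b (x, 5)) t₂ ≤ 2 * π by
    linarith [(bt_mem 5).1, (bt_mem T).2]) hC0
  refine cross hB' (t₁ := t₁) (t₂ := t₂) (lift_eq hr (hX.ang' x 5)) (.inl rfl) ?_ ?_ fun t ht => ?_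
  · rw [ag_mul_pow hB.smv hψ hB.smΦ]
    have : k * (bt 5 + ag Φ v (b (x, 5)) t₁) = k * bt (-T) := by rw [a2]
    linarith
  · rw [ag_mul_pow hB.smv hψ hB.smΦ]
    have : k * (bt 5 + ag Φ v (b (x, 5)) t₂) = k * bt T := by rw [b2]
    linarith
  · obtain ⟨s, -, e⟩ := (uIcc_subset_uIcc_union_uIcc (b := 0) ht).elim
      (fun h => (a3 t (by rwa [uIcc_comm])).imp fun _ h => (⟨trivial, h.2⟩ : True ∧ _))
      fun h => (b3 t h).imp fun _ h => ⟨trivial, h.2⟩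
    exact e ▸ hX.notMem hB _

theorem ctl (hK : K ⊆ PP Φ M) {K' : Set Y} (hK' : {y | (ψ * Φ ^ k) y = 1} ∩ Ct v Φ b K ⊆ K')
    (hk : C ≤ k) (h1 : π ≤ (k - C) * (bt (9 / 2) - bt 4)) (h2 : π ≤ (k - C) * (bt 4 - bt 3)) :
    slab b (Icc (-4) 4) ∪ col v Φ K ⊆ Mid (ψ * Φ ^ k) ∪ col v (ψ * Φ ^ k) K' := fun y hy => by
  refine or_iff_not_imp_left.2 fun hn => ?_
  have h3 := abs_le.1 (abs_ar_le_of (c := (ψ * Φ ^ k) y) (a := π / 2) (by positivity)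
    (by rw [cos_pi_div_two]; exact not_lt.1 hn))
  obtain ⟨σ, hσ, h4, h5⟩ : ∃ σ : ℝ, (σ = 1 ∨ σ = -1) ∧ σ * ar ((ψ * Φ ^ k) y) ≤ 0 ∧
      -π ≤ σ * ar ((ψ * Φ ^ k) y) := (le_total (ar ((ψ * Φ ^ k) y)) 0).elim
    (fun h => ⟨1, .inl rfl, by linarith, by linarith [pi_pos]⟩)
    fun h => ⟨-1, .inr rfl, by linarith, by linarith [pi_pos]⟩
  obtain ⟨T, g, g0, g1, g2, g3⟩ : ∃ T g, 0 < g ∧ π ≤ (k - C) * g ∧ g ≤ σ * ag Φ v y T ∧
      ∀ t ∈ uIcc 0 T, fl v t y ∈ Ct v Φ b K := by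
    by_cases h : y ∈ slab b (Icc (-4) 4)
    · obtain ⟨⟨x, s⟩, ⟨-, s1, s2⟩, rfl⟩ := h
      obtain ⟨T, -, a2, a3⟩ := box_go hB hX x s (σ * (9 / 2))
      refine ⟨T, _, sub_pos.2 (bt_mono (by norm_num)), h1, ?_, fun t ht => ?_⟩
      · have m1 := bt_mono.monotone s1
        have m2 := bt_mono.monotone s2
        rcases hσ with rfl | rfl
        · rw [one_mul] at a2; linarith
        · rw [neg_one_mul, bt_neg] at a2; rw [bt_neg] at m1; linarith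
      · obtain ⟨r, b1, b2⟩ := a3 t ht
        refine .inl ⟨(x, r), ⟨trivial, ?_⟩, b2.symm⟩
        dsimp only at s1 s2
        rcases hσ with rfl | rfl <;> rcases mem_uIcc.1 b1 with h | h <;> constructor <;>
          linarith [h.1, h.2]
    · have a1 := hy.resolve_left h
      have a2 := (hX.not_slab (c := 4) (by norm_num)).1 fun e =>
        h (image_mono (prod_mono_right Ioo_subset_Icc_self) e)
      have h0 : |σ * -bt 3| < π := by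
        rw [abs_sg hσ, abs_neg, abs_of_neg (bt_mem 3).2]; exact neg_lt.1 (bt_gt (by norm_num))
      obtain ⟨T, e⟩ := hB.col_reach hK a1 h0
      have sg := hB.seg (exp_ar _).symm (abs_ar_lt (col_ne hB.smv a1)) (e ▸ h0)
      refine ⟨T, _, sub_pos.2 (bt_mono (by norm_num)), h2, ?_, fun t ht =>
        .inr (col_fl hB.smv a1 fun s hs => sg s (uIcc_subset_uIcc_left ht hs))⟩
      have a3 := congrArg (σ * ·) e
      simp only [sg_sg hσ, mul_add] at a3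
      linarith [(abs_le.1 ((abs_sg hσ _).le.trans a2)).2]
  have g4 := gain hB hψ hC hσ (g0.trans_le g2)
  have g5 := mul_le_mul_of_nonneg_left g2 (sub_nonneg.2 hk)
  obtain ⟨t, b1, b2⟩ := cross hB' (t₁ := 0) (t₂ := T) (exp_ar _).symm hσ (by rwa [ag_zero, add_zero])
    (by rw [ag_mul_pow hB.smv hψ hB.smΦ]; linarith) g3
  exact ⟨t, hK' b2, hB'.seg (exp_ar _).symm (abs_lt.2 ⟨by linarith [pi_pos], by linarith [pi_pos]⟩)
    (by rw [show ar _ + ag _ v y t = 0 from b1]; simpa using pi_pos)⟩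

end Crest.Agent.X212.Hel40
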