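import Crest.Agent.X212.H7.K
import Crest.Agent.X212.Hel40.Defs

/-!
# X212/Hel40/Twr (helper40): the tower `Tw` (output of HEL) and the leaves which use `H7/K`
-/

set_option autoImplicit false
set_option linter.unusedSectionVars false

open Set Filter Topology Function
open scoped ContDiff Manifold
open Crest.Agent.R208.F Crest.Agent.X212.Dr59 Crest.Agent.X212.Int54 Crest.Agent.X212.Cyl58
open Crest.Agent.X212.Sep15 (EE IR CM Box slab px Rg)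
open Crest.Agent.X212.Bb31 (Fm Cy Df Pos)
open Crest.Agent.X212.Flo26 (SmV fl)
open Crest.Agent.X212.H7 (KK An NS Hd G3)

noncomputable section

namespace Crest.Agent.X212.Hel40

variable {Y Y' : CM 3} {R : CM 2}

/-- the data of a step: `Y'` is the next level -/
structure TS (o : Fm 3 Y) (U : Set Y) (Φ : Y → Circle) (o' : Fm 3 Y') (U' : Set Y')
    (Φ' : Y' → Circle) (oR : Fm 2 R) {b : R × ℝ → Y} {b' : R × ℝ → Y'} {h : Df R}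
    (G : Rg b h b') : Prop where
  ori : Ori (𝓡 3) o
  ori' : Ori (𝓡 3) o'
  oriR : Ori (𝓡 2) oR
  conn : IsConnected (univ : Set R)
  cy : Cy oR o b
  cy' : Cy oR o' b'
  same : SameOn (pm (𝓡 3) (𝓡 3) G.φ o') o G.φ.source
  kk : KK oR h
  sm : SC Φ
  sm' : SC Φ'
  op : IsOpen U
  op' : IsOpen U'
  box : ∀ p, Φ (b p) = cay p.2
  hel : ∃ (k : ℕ) (A B : ℂ → R) (δ ε : ℝ), 0 < k ∧ Hd oR A B δ ∧ 0 < ε ∧ ε < δ ∧
    ∀ p : R × ℝ, |p.2| < 3 → Φ' (b' p) = cay p.2 ^ k * del A ε p.1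
  sl' : slab b' (Icc (-2) 2) ⊆ U'
  sl : slab b (Ioo (-1) 1) ⊆ U
  rest : ∀ y ∈ U, y ∉ slab b (Ioo (-1) 1) → G.φ y ∈ U' ∧
    ∃ f > (0 : ℝ), dl (𝓡 3) (Φ' ∘ G.φ) y = f • dl (𝓡 3) Φ y
  clm : ∃ D c e₁ e₂, Clm b' U' Φ' D c e₁ e₂

/-- **the tower** (the output) -/
inductive Tw : (Y : CM 3) → Fm 3 Y → Set Y → (Y → Circle) → Prop
  | base {Y Y₀ : CM 3} {R : CM 2} {o : Fm 3 Y} {Φ : Y → Circle} {oR : Fm 2 R}
      {f : (R × Circle) ≃ₘ^∞⟮(𝓡 2).prod (𝓡 1), 𝓡 3⟯ Y₀} {b₀ : R × ℝ → Y₀} {b : R × ℝ → Y}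
      {g : Df R} {G : Rg b₀ g b} (h : TB o Φ oR f G) (hk : KK oR g) {U : Set Y} (hU : IsOpen U) :
      Tw Y o U Φ
  | step {Y Y' : CM 3} {R : CM 2} {o : Fm 3 Y} {U : Set Y} {Φ : Y → Circle} {o' : Fm 3 Y'}
      {U' : Set Y'} {Φ' : Y' → Circle} {oR : Fm 2 R} {b : R × ℝ → Y} {b' : R × ℝ → Y'} {h : Df R}
      {G : Rg b h b'} (hs : TS o U Φ o' U' Φ' oR G) (ih : Tw Y' o' U' Φ') : Tw Y o U Φ

/-- the goal of the package -/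
def HelStmt : Prop := ∀ (Y : CM 3) (o : Fm 3 Y) (Φ : Y → Circle), SmH o Φ → Tw Y o (Mid Φ) Φ

/-- SINGLE: one annulus is enough -/
def SingleStmt : Prop := ∀ (R : CM 2) (oR : Fm 2 R) (W : Set R) (A : ℂ → R) (ε : ℝ) (a : ℝ → R)
  (w : R → Circle), Ori (𝓡 2) oR → IsPreconnected (univ : Set R) → IsOpen W → IsPreconnected W →
  An' A → range A ⊆ W → 0 < ε → Dual (del A ε) a → range a ⊆ W → SC w →
  (∀ᶠ x in 𝓝ˢ (Wᶜ ∪ A '' {z | |z.im| ≤ ε} ∪ range a), w x = 1) →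
  ∃ A' : ℂ → R, An oR A' ∧ range A' ⊆ W ∧ NS A' ∧ Hm (del A ε * w) (del A' 1)

/-- HD 2: oriented handles from handle charts and back -/
def Hd2Stmt : Prop := ∀ (R : CM 2) (oR : Fm 2 R), Ori (𝓡 2) oR →
  (∀ (e : ℂ → R) δ, Hdl e δ → IsPreconnected (univ : Set R) → ∃ A B δ₁, Hd oR A B δ₁ ∧ NS A) ∧
  (∀ (e : Fin 3 → ℂ → R) δ, (∀ i, Hdl (e i) δ) →
    (∀ i j, i ≠ j → Disjoint (e i '' Xo δ) (e j '' Xo δ)) → IsPreconnected (univ : Set R) → G3 oR) ∧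
  (∀ A B δ, Hd oR A B δ → ∃ e δ₁, Hdl e δ₁ ∧ e '' Xo δ₁ ⊆ range A ∪ range B) ∧
  ∀ A B δ (k : Df R), Hd oR A B δ → Pos oR k → Hd oR (k ∘ A) (k ∘ B) δ

end Crest.Agent.X212.Hel40
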