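import Crest.Agent.X212.Hel40.Band
import Crest.Agent.X212.Stp42.Main
import Crest.Agent.X212.Hm4.Main
import Crest.Agent.X212.Tf47.Main
import Crest.Agent.X212.Tf47.Psi
import Crest.Agent.X212.Srf6.Main

/-!
# X212/Hel40/Main (helper40): the package HEL, closed
-/

namespace Crest.Agent.X212.Hel40

/-- a smooth hierarchy gives a tower of regluings -/
theorem mainStmt : MainStmt := Hm4.main (Stp42.step Srf6.surf Tf47.psi bandStmt) Tf47.tf

end Crest.Agent.X212.Hel40
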