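import Crest.Agent.X212.Hel40.Zs

/-!
# X212/Hel40/Nr (helper40): orbits near the plateau, the new column
-/

set_option autoImplicit false
set_option linter.unusedSectionVars false

open Set Filter Topology Function Real
open scoped ContDiff Manifold
open Crest.Agent.X212.Dr59 Crest.Agent.X212.Cyl58
open Crest.Agent.X212.Sep15 (EE IR CM Box slab px Rg)
open Crest.Agent.X212.Bb31 (Fm)
open Crest.Agent.X212.Flo26 (SmV fl)

noncomputable section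

namespace Crest.Agent.X212.Hel40

variable {Y : CM 3} {R : CM 2} {o : Fm 3 Y} {v : Vf Y} {Φ ψ : Y → Circle} {M M' K O W : Set Y}
  {σ : ℝ} {oR : Fm 2 R} {b : R × ℝ → Y}

theorem sg_sg (hσ : σ = 1 ∨ σ = -1) (x : ℝ) : σ * (σ * x) = x := by rcases hσ with rfl | rfl <;> ring

theorem abs_sg (hσ : σ = 1 ∨ σ = -1) (x : ℝ) : |σ * x| = |x| := by rcases hσ with rfl | rfl <;> simp

theorem mem_sg (hσ : σ = 1 ∨ σ = -1) {s t : ℝ} (hs : 0 ≤ s) (ht : t ∈ uIcc 0 (σ * s)) :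
    σ * t ∈ Icc 0 s := by
  rcases hσ with rfl | rfl <;> rcases mem_uIcc.1 ht with h | h <;> constructor <;> linarith [h.1, h.2]

theorem ar_one : ar 1 = 0 := by rw [← Circle.exp_zero, ar_exp (by simpa using pi_pos)]

theorem sg_le (hv : SmV (𝓡 3) v) (hσ : σ = 1 ∨ σ = -1) (hO : IsOpen O) {g : Y → ℝ}
    (hg : ContMDiffOn (𝓡 3) 𝓘(ℝ, ℝ) ∞ g O) (h0 : ∀ y ∈ O, 0 ≤ dr g v y) {y : Y} {s : ℝ} (hs : 0 ≤ s)
    (h : ∀ t ∈ Icc 0 s, fl v (σ * t) y ∈ O) : σ * g y ≤ σ * g (fl v (σ * s) y) := by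
  have k : ∀ z ∈ O, MDifferentiableAt (𝓡 3) 𝓘(ℝ, ℝ) g z ∧ 0 ≤ dr g v z := fun z hz =>
    ⟨(hg.contMDiffAt (hO.mem_nhds hz)).mdifferentiableAt (by simp), h0 z hz⟩
  rcases hσ with rfl | rfl
  · have := le_of_dr hv (f := g) (y := y) hs fun t ht => k _ (by simpa using h t ht)
    rw [Flo26.fl_zero hv] at this
    simpa using this
  · have := le_of_dr hv (f := g) (y := y) (neg_nonpos.2 hs) fun t ht =>
      k _ (by simpa using h (-t) ⟨by linarith [ht.2], by linarith [ht.1]⟩)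
    rw [Flo26.fl_zero hv] at this
    simpa using this

/-- segments whose angle does not grow stay in `W` -/
def Stay (v : Vf Y) (Φ : Y → Circle) (y : Y) (W : Set Y) : Prop :=
  ∀ T : ℝ, (∀ t ∈ uIcc 0 T, (Φ y : ℂ).re ≤ (Φ (fl v t y) : ℂ).re) → fl v T y ∈ W

theorem Stay.seg (hB : Bas o v Φ M) (hσ : σ = 1 ∨ σ = -1) {y : Y} (h : Stay v Φ y W) {s : ℝ}
    (h1 : σ * (ar (Φ y) + ag Φ v y (σ * s)) ≤ 0) : ∀ t ∈ Icc 0 s, fl v (σ * t) y ∈ W := fun t ht => by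
  refine h _ fun r hr => ?_
  have h2 := mem_sg hσ ht.1 hr
  have h3 := hB.mono hσ y h2.1
  have h4 := hB.mono hσ y (h2.2.trans ht.2)
  simp only [mul_zero, ag_zero, sg_sg hσ] at h3 h4
  rw [phi_fl' hB.smv hB.smΦ (exp_ar _).symm, re_exp, ← exp_ar (Φ y), re_exp, exp_ar, ← cos_abs,
    ← cos_abs (_ + _)]
  refine cos_le_cos_of_nonneg_of_le_pi (abs_nonneg _) (abs_ar_le _) ?_
  rw [← abs_sg hσ, ← abs_sg hσ (ar _), abs_of_nonpos (by linarith), abs_of_nonpos (by linarith)]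
  linarith

/-- a coloured point crosses the level `1` off the plateau -/
theorem free (hB : Bas o v Φ M) (hσ : σ = 1 ∨ σ = -1) (hO : IsOpen O) {g : Y → ℝ}
    (hg : ContMDiffOn (𝓡 3) 𝓘(ℝ, ℝ) ∞ g O) (h0 : ∀ y ∈ O, 0 ≤ dr g v y) (hM : ∀ y ∈ M, g y = 0)
    (hW : IsClosed W) (hWO : W ⊆ O) {y : Y} (h : Stay v Φ y W) (hy : 0 < σ * g y) {c : ℝ}
    (h1 : σ * ar (Φ y) ≤ c) (h2 : c < 2 * π) :
    ∃ T, σ * (ar (Φ y) + ag Φ v y T) = c ∧ ∀ t ∈ uIcc 0 T, fl v t y ∉ M := by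
  have hv := hB.smv
  have A : ∀ s ≥ 0, σ * (ar (Φ y) + ag Φ v y (σ * s)) ≤ 0 →
      fl v (σ * s) y ∈ W ∩ g ⁻¹' {x | σ * g y ≤ σ * x} := fun s hs h1 =>
    ⟨h.seg hB hσ h1 s ⟨hs, le_rfl⟩, sg_le hv hσ hO hg h0 hs fun t ht => hWO (h.seg hB hσ h1 t ht)⟩
  have A' : ∀ z ∈ W ∩ g ⁻¹' {x | σ * g y ≤ σ * x}, z ∉ M := fun z hz hm => by
    have := hz.2
    rw [mem_preimage, hM z hm] at this
    exact hy.not_ge (by simpa using this)
  obtain ⟨s₀, hs₀, B⟩ : ∃ s ≥ 0, 0 < σ * (ar (Φ y) + ag Φ v y (σ * s)) := by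
    by_contra hn
    push Not at hn
    obtain ⟨s, hs, e⟩ := grow hσ hv hB.smΦ ((hg.continuousOn.mono hWO).preimage_isClosed_of_isClosed
      hW (isClosed_le continuous_const (by fun_prop))).isCompact (fun z hz => hB.pos z (A' z hz))
      (fun s hs => A s hs (hn s hs)) (1 - σ * ar (Φ y))
    linarith [hn s hs]
  obtain ⟨s, hs, e⟩ := hB.reach' hσ (exp_ar _).symm h1 h2 hs₀ B
  refine ⟨_, e, fun t ht hm => ?_⟩
  have h3 := mem_sg hσ hs ht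
  have h4 := hB.mono hσ y h3.2
  rcases le_or_gt (σ * (ar (Φ y) + ag Φ v y (σ * (σ * t)))) 0 with k | k
  · exact A' _ (A _ h3.1 k) (by rwa [sg_sg hσ])
  · simp only [sg_sg hσ] at h4 k
    refine exp_ne_one (a := ar (Φ y) + ag Φ v y t) (fun e => by simp [e] at k) ?_
      ((phi_fl' hv hB.smΦ (exp_ar _).symm t).symm.trans (hB.one _ hm))
    rw [← abs_sg hσ, abs_of_pos k]
    linarith

/-- a point with one colour is moved to a point with a good lift -/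
theorem into (hB : Bas o v Φ M) (hψ : SC ψ) (hσ : σ = 1 ∨ σ = -1) {p q : Y → ℝ} {N : Set Y} {ρ c : ℝ}
    (cp : ContinuousOn p W) (cq : ContinuousOn q W) (hN : IsOpen N) (hNW : closure N ⊆ W)
    (hN' : ∀ y ∈ W, p y < ρ → q y < ρ → y ∈ N) (hM : ∀ y ∈ W, p y ≤ 0 → q y ≤ 0 → y ∈ M)
    (hW : ∀ y ∈ W, 0 ≤ rt ψ v y ∧ |ar (Φ y)| ≤ c) (hc : c < π) {y : Y} (hy : y ∈ N) (hM' : y ∉ M)
    (mono : ∀ s ≥ 0, (∀ t ∈ Icc 0 s, fl v (σ * t) y ∈ W) → p (fl v (σ * s) y) ≤ p y)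
    (h1 : 0 < p y) (h2 : p y < ρ) {r : ℝ} (hr : σ * r ≤ 0) (hθ : 0 ≤ σ * ar (Φ y)) :
    ∃ T, fl v T y ∈ closure N ∧ 0 < p (fl v T y) ∧ |r + ag ψ v y T| ≤ |r| + 1 ∧
      (0 < σ * (r + ag ψ v y T) ∨ 0 < q (fl v T y)) ∧ ar (Φ (fl v T y)) = ar (Φ y) + ag Φ v y T := by
  have hv := hB.smv
  obtain ⟨c', c1, c2⟩ := exists_between hc
  have yW := hNW (subset_closure hy)
  have c3 : σ * ar (Φ y) ≤ c := (le_abs_self _).trans (by rw [abs_sg hσ]; exact (hW y yW).2)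
  obtain ⟨s, hs, e⟩ := hB.reach' hσ (exp_ar _).symm (c := c') (by linarith) (by linarith [pi_pos])
    zero_le_one (by linarith [hB.strict hσ hM' one_pos])
  have ang : ∀ t ∈ Icc 0 s, |ar (Φ y) + ag Φ v y (σ * t)| < π := fun t ht => by
    have h3 := hB.mono hσ y ht.1
    have h4 := hB.mono hσ y ht.2
    simp only [mul_zero, ag_zero] at h3 h4
    rw [← abs_sg hσ, abs_of_nonneg (by linarith)]
    linarith
  have ang' : ∀ t ∈ Icc 0 s, ar (Φ (fl v (σ * t) y)) = ar (Φ y) + ag Φ v y (σ * t) := fun t ht => by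
    rw [phi_fl' hv hB.smΦ (exp_ar _).symm, ar_exp (ang t ht)]
  have cγ : Continuous fun t : ℝ => fl v (σ * t) y := fl_cont' hv (by fun_prop) continuous_const
  obtain ⟨t₁, a1, a2, -, a4⟩ := first_exit cγ hN (by rwa [mul_zero, Flo26.fl_zero hv]) hs fun h => by
    have := (hW _ (hNW (subset_closure h))).2
    rw [ang' s ⟨hs, le_rfl⟩, ← abs_sg hσ, e] at this
    linarith [le_abs_self c']
  have a5 : ∀ t ∈ Icc 0 t₁, fl v (σ * t) y ∈ W := fun t ht => hNW (a4 t ht)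
  have a6 : ∀ t ∈ Icc 0 t₁, fl v (σ * t) y ∉ M := fun t ht hm => by
    rcases ht.1.eq_or_lt with rfl | h
    · exact hM' (by rwa [mul_zero, Flo26.fl_zero hv] at hm)
    · have := ang' t ⟨ht.1, ht.2.trans a1.2⟩
      rw [hB.one _ hm, ar_one] at this
      have h3 := hB.strict hσ hM' h
      rw [← neg_eq_iff_add_eq_zero.2 this.symm] at h3
      linarith
  have cr : ContinuousOn (fun t => σ * (r + ag ψ v y (σ * t))) (Icc 0 t₁) :=
    (continuous_const.mul (continuous_const.add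
      (ag_cont hv hψ continuous_const (by fun_prop)))).continuousOn
  have cl := fun {f : ℝ → ℝ} (hf : ContinuousOn f (Icc 0 t₁)) {A : Set ℝ} (hA : IsClosed A) =>
    hf.preimage_isClosed_of_isClosed isClosed_Icc hA
  by_contra hn
  have key : ∀ t ∈ Icc 0 t₁, (σ * (r + ag ψ v y (σ * t)) ≤ 0 ∧ q (fl v (σ * t) y) ≤ 0) ∨
      p (fl v (σ * t) y) ≤ 0 ∨ 1 ≤ σ * (r + ag ψ v y (σ * t)) := fun t ht => by
    by_contra h
    simp only [not_or, not_and_or, not_le] at h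
    refine hn ⟨σ * t, a4 t ht, h.2.1, ?_, h.1, ang' t ⟨ht.1, ht.2.trans a1.2⟩⟩
    have := sg_mono hσ hv hB.smΦ ht.1 hψ (C := 0) fun t' ht' => by
      simpa using (hW _ (a5 t' ⟨ht'.1, ht'.2.trans ht.2⟩)).1
    rw [← abs_sg hσ, ← abs_sg hσ r, abs_of_nonpos hr]
    exact abs_le.2 ⟨by linarith, by linarith [h.2.2]⟩
  have l0 : (0 : ℝ) ∈ Icc 0 t₁ := ⟨le_rfl, a1.1.le⟩
  have l1 : t₁ ∈ Icc 0 t₁ := ⟨a1.1.le, le_rfl⟩
  obtain ⟨t, ht, ⟨b1, b2⟩, b3⟩ := isPreconnected_closed_iff.1 isPreconnected_Icc _ _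
    ((cl cr isClosed_Iic).inter (cl (cq.comp cγ.continuousOn a5) isClosed_Iic))
    ((cl (cp.comp cγ.continuousOn a5) isClosed_Iic).union (cl cr isClosed_Ici))
    (fun t ht => (key t ht).imp (fun h => ⟨⟨ht, h.1⟩, ht, h.2⟩) fun h =>
      h.imp (fun h => ⟨ht, h⟩) fun h => ⟨ht, h⟩)
    ⟨0, l0, ((key 0 l0).resolve_right (by
      rw [mul_zero, Flo26.fl_zero hv, ag_zero, add_zero]
      exact fun h => h.elim h1.not_ge fun h => by linarith)).elim fun a c => ⟨⟨l0, a⟩, l0, c⟩⟩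
    ⟨t₁, l1, ((key t₁ l1).resolve_left fun h => a2 (hN' _ (a5 _ l1)
      ((mono _ a1.1.le a5).trans_lt h2) (by linarith [h.2]))).imp (fun h => ⟨l1, h⟩) fun h => ⟨l1, h⟩⟩
  rcases b3 with b3 | b3
  · exact a6 t ht (hM _ (a5 t ht) b3.2 b2.2)
  · exact (one_pos (α := ℝ)).not_ge ((mem_Ici.1 b3.2).trans (mem_Iic.1 b1.2))

/-! ### neighbourhoods of the plateau -/

theorem Pre.small (S : Pre v M M') (hW : W ∈ 𝓝ˢ M) : ∃ ρ > (0 : ℝ), ∃ N, IsOpen N ∧ M ⊆ N ∧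
    closure N ⊆ W ∧ ∀ y, y ∈ N ↔ y ∈ S.O ∧ S.tp y < ρ ∧ -S.tm y < ρ := by
  let u : Y → ℝ := fun y => max (S.tp y) (-S.tm y)
  have uc : ContinuousOn u S.O := S.sp.continuousOn.sup S.sm.continuousOn.neg
  obtain ⟨m, hm, hm'⟩ := (S.cpt.diff (isOpen_interior (s := W))).exists_forall_le' (a := 0)
    (uc.mono fun y hy => hy.1.1) fun y hy => not_le.1 fun h => hy.2
      (subset_interior_iff_mem_nhdsSet.2 hW ((S.meq y).2 ⟨hy.1.1,
        ((le_max_left _ _).trans h).antisymm (S.p0 y hy.1.1),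
        (S.m0 y hy.1.1).antisymm (neg_nonpos.1 ((le_max_right _ _).trans h))⟩))
  have hρ : 0 < min S.r (m / 2) := lt_min S.rpos (half_pos hm)
  refine ⟨_, hρ, S.O ∩ u ⁻¹' Iio (min S.r (m / 2)), uc.isOpen_inter_preimage S.op isOpen_Iio,
    fun y hy => ?_, (closure_minimal (fun y hy => ?_) ((uc.mono fun y hy => hy.1
      ).preimage_isClosed_of_isClosed S.cpt.isClosed (isClosed_Iic (a := m / 2)))).trans
      fun y hy => interior_subset (by_contra fun h => by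
        linarith [hm' y ⟨hy.1, h⟩, show u y ≤ m / 2 from hy.2]),
    fun y => and_congr_right fun _ => max_lt_iff (b := S.tp y)⟩
  · obtain ⟨a1, a2, a3⟩ := (S.meq y).1 hy
    exact ⟨a1, by simpa [u, a2, a3] using hρ⟩
  · obtain ⟨a1, a2⟩ := lt_min_iff.1 (show u y < min _ _ from hy.2)
    obtain ⟨a3, a4⟩ := max_lt_iff.1 a1
    exact ⟨⟨hy.1, a3.le, by linarith⟩, a2.le⟩

/-! ### the new column -/

theorem new_col (hX : Bx o v Φ oR b) {e : ℂ → R} {δ a : ℝ} (he : Hdl e δ) {k : ℕ} (hk : 0 < k)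
    {m : ℤ} (hm : ∀ θ, |θ| < a → (θ + 2 * π * m) / k ∈ Ioo (bt 5) (bt 6))
    (hψ : ∀ z ∈ Xo δ, ∀ s ∈ Ioo (5 : ℝ) 6, ψ (b (e z, s)) = 1) :
    ∃ h : ℝ → ℝ, Col v (ψ * Φ ^ k) δ a (fun p => b (e p.1, h p.2)) ∧
      ∀ θ, |θ| < a → h θ ∈ Ioo (5 : ℝ) 6 ∧ k * bt (h θ) = θ + 2 * π * m := by
  have k0 : (0 : ℝ) < k := Nat.cast_pos.2 hk
  let g : ℝ → ℝ := fun θ => ((θ + 2 * π * m) / k + π) / 2
  have h1 : ∀ θ, |θ| < a → -(π / 2) < g θ ∧ g θ < π / 2 := fun θ h =>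
    ⟨by simp only [g]; linarith [(hm θ h).1, (bt_mem 5).1],
      by simp only [g]; linarith [(hm θ h).2, (bt_mem 6).2]⟩
  have h2 : ∀ θ, |θ| < a → bt (tan (g θ)) = (θ + 2 * π * m) / k := fun θ h => by
    rw [bt, arctan_tan (h1 θ h).1 (h1 θ h).2]; simp only [g]; ring
  have h3 : ∀ θ, |θ| < a → tan (g θ) ∈ Ioo (5 : ℝ) 6 ∧ k * bt (tan (g θ)) = θ + 2 * π * m :=
    fun θ h => ⟨⟨bt_mono.lt_iff_lt.1 (h2 θ h ▸ (hm θ h).1), bt_mono.lt_iff_lt.1 (h2 θ h ▸ (hm θ h).2)⟩,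
      by rw [h2 θ h]; field_simp⟩
  have h4 : ∀ θ, |θ| < a → cos (g θ) ≠ 0 := fun θ h => (cos_pos_of_mem_Ioo (h1 θ h)).ne'
  have h5 : ∀ θ, |θ| < a → HasDerivAt (fun θ => tan (g θ)) (1 / cos (g θ) ^ 2 * (1 / k / 2)) θ :=
    fun θ h => (hasDerivAt_tan (h4 θ h)).comp θ
      (((((hasDerivAt_id θ).add_const _).div_const _).add_const _).div_const _)
  have h6 : ∀ θ, |θ| < a → 0 < 1 / cos (g θ) ^ 2 * (1 / k / 2 : ℝ) := fun θ h => by
    have := h4 θ h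
    positivity
  have ld : ∀ p : ℂ × ℝ, p.1 ∈ Xo δ → |p.2| < a →
      IsLocalDiffeomorphAt ICR (𝓡 3) ∞ (fun p : ℂ × ℝ => b (e p.1, tan (g p.2))) p := fun p a1 a2 =>
    (Glue52.ld_prodMap_at (he.ld _ a1) (Glue52.ld_of_injective_mfderiv (f := fun θ => tan (g θ)) rfl
      (isOpen_lt continuous_abs continuous_const) a2 (fun θ h => ((contDiffAt_tan.2 (h4 θ h)).comp θ
        (by simp only [g]; fun_prop)).contMDiffAt.contMDiffWithinAt) (by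
      rw [(h5 _ a2).hasFDerivAt.hasMFDerivAt.mfderiv]
      exact fun (x y : ℝ) h => mul_right_cancel₀ (M₀ := ℝ) (h6 _ a2).ne' h))).comp (𝓡 3) Y (hX.box.loc _)
  refine ⟨fun θ => tan (g θ), ⟨he.pos, he.lt, ld, fun p q a1 a2 a3 a4 => ?_, fun p a1 a2 => ?_,
    fun p a1 a2 => ?_⟩, h3⟩
  · rw [hX.box.inj.eq_iff, Prod.mk.injEq, he.eq _ a1 _ a3, and_comm]
    refine and_congr_left fun _ => ⟨fun h => ?_, fun h => by rw [h]⟩
    have := (h3 _ a2).2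
    rw [show tan (g p.2) = tan (g q.2) from h, (h3 _ a4).2] at this
    linarith
  · rw [Pi.mul_apply, Pi.pow_apply, hψ _ a1 _ (h3 _ a2).1, one_mul, hX.ang', ← Circle.exp_natCast_mul,
      (h3 _ a2).2]
    exact Circle.exp_eq_exp.2 ⟨m, by ring⟩
  · obtain ⟨f, f1, f2⟩ := Box46.vert_vv hX.vert (e p.1, tan (g p.2))
    refine ⟨_, mul_pos (h6 _ a2) f1, ?_⟩
    have := Box46.mf_line (J := 𝓘(ℝ, ℂ)) (z := p.1) (hasDerivAt_id p.2)
      ((ld p a1 a2).contMDiffAt.mdifferentiableAt (by simp))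
    rw [one_smul] at this
    have h7 := Box46.mf_line (z := e p.1) (h5 _ a2)
      ((hX.box.contMDiff _).mdifferentiableAt (by simp))
    rw [f2, smul_smul] at h7
    exact this.symm.trans h7

end Crest.Agent.X212.Hel40
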