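import Crest.Agent.X212.Hel40.Cov
import Crest.Agent.X212.Box46.Trk

/-!
# X212/Hel40/Zs (helper40): orbits in a box, projection of the cyclic cover to the middle surface
-/

set_option autoImplicit false
set_option linter.unusedSectionVars false

open Set Filter Topology Function Real
open scoped ContDiff Manifold
open Crest.Agent.X212.Dr59 Crest.Agent.X212.Cyl58
open Crest.Agent.X212.Sep15 (EE IR CM Box slab px Rg)
open Crest.Agent.X212.Bb31 (Fm)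
open Crest.Agent.X212.Flo26 (SmV fl)

noncomputable section

namespace Crest.Agent.X212.Hel40

variable {Y : CM 3} {R : CM 2} {o : Fm 3 Y} {v : Vf Y} {Φ ψ : Y → Circle} {M K G : Set Y} {σ : ℝ}
  {oR : Fm 2 R} {b : R × ℝ → Y}

/-! ### the box -/

theorem Bx.ang' (hX : Bx o v Φ oR b) (x : R) (s : ℝ) : Φ (b (x, s)) = Circle.exp (bt s) :=
  (hX.ang _).trans (cay_eq s)

theorem Bx.notMem (hX : Bx o v Φ oR b) (hB : Bas o v Φ M) (p : R × ℝ) : b p ∉ M := fun h =>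
  cay_ne_one _ ((hX.ang p).symm.trans (hB.one _ h))

theorem Bx.of_ang (hX : Bx o v Φ oR b) {y : Y} {a : ℝ} (ha : Φ y = Circle.exp a)
    (h1 : -(2 * π) < a) (h2 : a < 0) : ∃ x s, y = b (x, s) ∧ bt s = a := by
  obtain ⟨p, rfl⟩ : y ∈ range b := by
    rw [hX.rg]
    exact fun e => exp_ne_one h2.ne (abs_lt.2 ⟨h1, by linarith⟩) (ha.symm.trans e)
  have := bt_mem p.2
  exact ⟨p.1, p.2, rfl, exp_inj ((hX.ang' _ _).symm.trans ha) (abs_lt.2 ⟨by linarith, by linarith⟩)⟩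

theorem box_fl (hB : Bas o v Φ M) (hX : Bx o v Φ oR b) {x : R} {s s' T : ℝ}
    (h : bt s + ag Φ v (b (x, s)) T = bt s') : ∀ t ∈ uIcc 0 T, ∃ s'' ∈ uIcc s s',
      fl v t (b (x, s)) = b (x, s'') ∧ bt s + ag Φ v (b (x, s)) t = bt s'' := by
  have hv := hB.smv
  have h1 : ∀ t ∈ uIcc 0 T, ∃ x', ∃ s'' ∈ uIcc s s', fl v t (b (x, s)) = b (x', s'') ∧
      bt s + ag Φ v (b (x, s)) t = bt s'' := fun t ht => by
    have h2 := (ag_mono hv hB.smΦ hB.nn (b (x, s))).mapsTo_uIcc ht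
    rw [ag_zero, mem_uIcc] at h2
    have := bt_mem s
    have := bt_mem s'
    obtain ⟨x', s'', e1, e2⟩ := hX.of_ang (phi_fl' hv hB.smΦ (hX.ang' x s) t)
      (by rcases h2 with k | k <;> linarith [k.1]) (by rcases h2 with k | k <;> linarith [k.2])
    refine ⟨x', s'', ?_, e1, e2.symm⟩
    have m : ∀ {a c : ℝ}, bt a ≤ bt c → a ≤ c := bt_mono.le_iff_le.1
    exact mem_uIcc.2 (h2.imp (fun k => ⟨m (by linarith [k.1]), m (by linarith [k.2])⟩)
      fun k => ⟨m (by linarith [k.1]), m (by linarith [k.2])⟩)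
  intro t ht
  obtain ⟨x', s'', a1, a2, a3⟩ := h1 t ht
  have c : ContMDiff 𝓘(ℝ, ℝ) (𝓡 3) ∞ fun t => fl v t (b (x, s)) :=
    ((cpl hv).contMDiff hv).comp (contMDiff_id.prodMk contMDiff_const)
  obtain rfl : x = x' := Box46.foot hX.box hX.vert (γ := fun t => fl v t (b (x, s)))
    (S := {t | Φ (fl v t (b (x, s))) ≠ 1})
    (isOpen_ne_fun (hB.smΦ.continuous.comp c.continuous) continuous_const)
    (fun r hr => ⟨c r, by rw [hX.rg]; exact hr, 1, by
      rw [mf, (Flo26.hasMFDerivAt_fl hv (cpl hv (r, _))).mfderiv]; rfl⟩)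
    (s := 0) (t := t) (fun r hr => by
      obtain ⟨x', s'', -, a2, -⟩ := h1 r (uIcc_subset_uIcc_left ht hr)
      show Φ (fl v r _) ≠ 1
      rw [a2, hX.ang]; exact cay_ne_one _) (p := (x, s)) (Flo26.fl_zero hv _) (q := (x', s'')) a2
  exact ⟨s'', a1, a2, a3⟩

theorem box_go (hB : Bas o v Φ M) (hX : Bx o v Φ oR b) (x : R) (s s' : ℝ) :
    ∃ T, fl v T (b (x, s)) = b (x, s') ∧ bt s + ag Φ v (b (x, s)) T = bt s' ∧
      ∀ t ∈ uIcc 0 T, ∃ s'' ∈ uIcc s s', fl v t (b (x, s)) = b (x, s'') := by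
  have := bt_mem s
  have := bt_mem s'
  obtain ⟨T, h⟩ : ∃ T, bt s + ag Φ v (b (x, s)) T = bt s' := by
    rcases le_total (bt s) (bt s') with h | h
    · obtain ⟨t, -, e⟩ := hB.reach (.inl rfl) (hX.ang' x s) (c := bt s') (by linarith) fun z hz =>
        exp_ne_one (by linarith [hz.2]) (abs_lt.2 ⟨by linarith [hz.1], by linarith [hz.2]⟩)
      exact ⟨_, by linarith⟩
    · obtain ⟨t, -, e⟩ := hB.reach (.inr rfl) (hX.ang' x s) (c := -bt s') (by linarith) fun z hz =>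
        exp_ne_one (by linarith [hz.1]) (abs_lt.2 ⟨by linarith [hz.2], by linarith [hz.1]⟩)
      exact ⟨_, by linarith⟩
  obtain ⟨s'', -, a2, a3⟩ := box_fl hB hX h T right_mem_uIcc
  obtain rfl := bt_mono.injective (a3.symm.trans h)
  exact ⟨T, a2, h, fun t ht => let ⟨r, c1, c2, _⟩ := box_fl hB hX h t ht; ⟨r, c1, c2⟩⟩

theorem Bx.ar_pos (hX : Bx o v Φ oR b) (x : R) {s : ℝ} (h : 0 < s) : ar (Φ (b (x, s))) = bt s := by
  rw [hX.ang', ar_exp (abs_lt.2 ⟨bt_gt h, by linarith [(bt_mem s).2, pi_pos]⟩)]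

theorem Bx.ar_neg (hX : Bx o v Φ oR b) (x : R) {s : ℝ} (h : s < 0) :
    ar (Φ (b (x, s))) = -bt (-s) := by
  have := bt_gt (neg_pos.2 h)
  have := bt_mem (-s)
  rw [hX.ang', ← Circle.exp_add_two_pi, show bt s + 2 * π = -bt (-s) by rw [bt_neg]; ring,
    ar_exp (abs_lt.2 ⟨by linarith [pi_pos], by linarith⟩)]

theorem Bx.not_slab (hX : Bx o v Φ oR b) {c : ℝ} (hc : 0 < c) {y : Y} :
    y ∉ slab b (Ioo (-c) c) ↔ |ar (Φ y)| ≤ -bt c := by
  have h0 := (bt_mem c).2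
  refine ⟨fun h => ?_, ?_⟩
  · by_cases e : Φ y = 1
    · rw [e, ← Circle.exp_zero, ar_exp (by simpa using pi_pos), abs_zero]; linarith
    obtain ⟨⟨x, s⟩, rfl⟩ : y ∈ range b := by rw [hX.rg]; exact e
    rcases le_or_gt c s with h1 | h1
    · rw [hX.ar_pos x (hc.trans_le h1), abs_of_neg (bt_mem s).2, neg_le_neg_iff]
      exact bt_mono.monotone h1
    · have h2 : s ≤ -c := not_lt.1 fun h2 => h ⟨_, ⟨trivial, h2, h1⟩, rfl⟩
      rw [hX.ar_neg x (by linarith), abs_neg, abs_of_neg (bt_mem _).2, neg_le_neg_iff]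
      exact bt_mono.monotone (by linarith)
  · rintro h ⟨p, hp, rfl⟩
    exact (le_abs_of_cay hc ((hX.ang p).symm.trans (exp_ar _).symm) h).not_gt (abs_lt.2 hp.2)

theorem Bx.cpt (hX : Bx o v Φ oR b) (a c : ℝ) : IsCompact (slab b (Icc a c)) :=
  (isCompact_univ.prod isCompact_Icc).image hX.box.contMDiff.continuous

/-! ### estimates -/

theorem ag_eq_zero (hv : SmV (𝓡 3) v) (hψ : SC ψ) {y : Y} {T : ℝ}
    (h : ∀ t ∈ uIcc 0 T, ψ (fl v t y) = ψ y) : ag ψ v y T = 0 :=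
  log_eq (g := fun _ => 0) (continuous_ag' hv hψ y).continuousOn continuousOn_const (fun t ht => by
    have := h t ht
    rwa [phi_fl hv hψ, mul_eq_left, ← Circle.exp_zero] at this) (ag_zero y)

theorem gain (hB : Bas o v Φ M) (hψ : SC ψ) {C : ℝ} (hC : ∀ y, 0 ≤ rt ψ v y + C * rt Φ v y)
    (hσ : σ = 1 ∨ σ = -1) {y : Y} {T : ℝ} (h : 0 < σ * ag Φ v y T) :
    0 ≤ σ * ag ψ v y T + C * (σ * ag Φ v y T) := by
  have e : T = σ * (σ * T) := by rcases hσ with rfl | rfl <;> ring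
  rw [e] at h ⊢
  refine sg_mono hσ hB.smv hB.smΦ (not_lt.1 fun hn => ?_) hψ fun _ _ => hC _
  have := hB.mono hσ y hn.le
  simp only [mul_zero, ag_zero] at this
  linarith

theorem crs_ag (hB : Bas o v Φ M) {X : Type*} {y : X → Y} {θ : X → ℝ} {p : X} {t : ℝ}
    (h : θ p + ag Φ v (y p) t = 0) (hM : fl v t (y p) ∉ M) :
    Crs (fun p t => θ p + ag Φ v (y p) t) p t :=
  have h1 := ag_strict hB.smv hB.smΦ hB.nn (hB.pos _ hM)
  ⟨fun s hs => by linarith [h1.1 s hs], fun s hs => by linarith [h1.2 s hs]⟩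

theorem ag_contOn (hv : SmV (𝓡 3) v) (h : SC Φ) {X : Type*} [TopologicalSpace X] {y : X → Y}
    {t : X → ℝ} {C : Set X} (hy : ContinuousOn y C) (ht : ContinuousOn t C) :
    ContinuousOn (fun x => ag Φ v (y x) (t x)) C :=
  Continuous.comp_continuousOn (g := fun p : Y × ℝ => ag Φ v p.1 p.2) (f := fun x => (y x, t x))
    (continuous_ag hv h) (hy.prodMk ht)

theorem time_cont (hB : Bas o v Φ M) {X : Type*} [TopologicalSpace X] {y : X → Y} {θ τ : X → ℝ}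
    {C : Set X} (hy : ContinuousOn y C) (hθ : ContinuousOn θ C)
    (h : ∀ p ∈ C, θ p + ag Φ v (y p) (τ p) = 0 ∧ fl v (τ p) (y p) ∉ M) : ContinuousOn τ C :=
  continuousOn_crs (F := fun p t => θ p + ag Φ v (y p) t)
    (fun _ => hθ.add (ag_contOn hB.smv hB.smΦ hy continuousOn_const))
    fun p hp => crs_ag hB (h p hp).1 (h p hp).2

/-- the winding of `ψ` up to a fixed level is bounded on compact sets -/
theorem bnd (hB : Bas o v Φ M) (hψ : SC ψ) {X : Type*} [TopologicalSpace X] {y : X → Y} {θ : X → ℝ}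
    {C : Set X} (hC : IsCompact C) (hy : ContinuousOn y C) (hθ : ContinuousOn θ C) {P : X → Y → Prop}
    (h : ∀ p ∈ C, ∃ T, θ p + ag Φ v (y p) T = 0 ∧ fl v T (y p) ∉ M ∧ P p (fl v T (y p))) :
    ∃ D, ∀ p ∈ C, ∃ T, θ p + ag Φ v (y p) T = 0 ∧ P p (fl v T (y p)) ∧ |ag ψ v (y p) T| ≤ D := by
  choose! τ h1 h2 h3 using h
  obtain ⟨D, hD⟩ := hC.exists_bound_of_continuousOn
    (ag_contOn hB.smv hψ hy (time_cont hB hy hθ fun p hp => ⟨h1 p hp, h2 p hp⟩))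
  exact ⟨D, fun p hp => ⟨τ p, h1 p hp, h3 p hp, hD p hp⟩⟩

/-! ### the projection -/

/-- lifted points whose orbit meets the level `0` in `G` -/
def Zs (Φ : Y → Circle) (v : Vf Y) (G : Set Y) : Set (Y × ℝ) :=
  {q | ∃ t, q.2 + ag Φ v q.1 t = 0 ∧ fl v t q.1 ∈ G}

theorem Zs.mono {G' : Set Y} (h : G ⊆ G') : Zs Φ v G ⊆ Zs Φ v G' := fun _ ⟨t, a, c⟩ => ⟨t, a, h c⟩

theorem zs_fl (hB : Bas o v Φ M) {y : Y} {a t : ℝ} (h : (fl v t y, a + ag Φ v y t) ∈ Zs Φ v G) :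
    (y, a) ∈ Zs Φ v G :=
  let ⟨s, h1, h2⟩ := h
  ⟨s + t, by rw [ag_add hB.smv hB.smΦ, ← add_assoc]; exact h1, by rw [fl_add hB.smv]; exact h2⟩

theorem zs_zero (hB : Bas o v Φ M) (hG : ∀ y ∈ G, y ∉ M) {y : Y} (hy : y ∉ M)
    (h : (y, 0) ∈ Zs Φ v G) : y ∈ G := by
  obtain ⟨t, h1, h2⟩ := h
  obtain rfl := (crs_ag hB (y := fun _ : Unit => y) (θ := fun _ => 0) (p := ()) h1 (hG _ h2)).unique
    (crs_ag hB (t := 0) (by rw [ag_zero, add_zero]) (by rwa [Flo26.fl_zero hB.smv]))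
  rwa [Flo26.fl_zero hB.smv] at h2

theorem spread (hB : Bas o v Φ M) (hG : ∀ y ∈ G, y ∉ M) {p q : Y × ℝ} (h : Jd (Zs Φ v G) p q)
    {y₀ : Y} (hq : q ∈ Zs Φ v (connectedComponentIn G y₀)) :
    p ∈ Zs Φ v (connectedComponentIn G y₀) := by
  obtain ⟨A, a1, a2, a3, a4⟩ := h
  choose! τ h1 h2 using fun q (hq : q ∈ A) => a1 hq
  have c := time_cont hB (C := A) continuousOn_fst continuousOn_snd fun p hp =>
    ⟨h1 p hp, hG _ (h2 p hp)⟩
  have h3 := a2.image _ ((fl_cont hB.smv).comp_continuousOn (c.prodMk continuousOn_fst))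
  obtain ⟨t, b1, b2⟩ := hq
  obtain rfl := (crs_ag hB (y := Prod.fst) (θ := Prod.snd) (h1 q a4) (hG _ (h2 q a4))).unique
    (crs_ag hB b1 (hG _ (connectedComponentIn_subset _ _ b2)))
  refine ⟨τ p, h1 p a3, ?_⟩
  rw [connectedComponentIn_eq b2]
  exact h3.subset_connectedComponentIn ⟨q, a4, rfl⟩ (image_subset_iff.2 h2) ⟨p, a3, rfl⟩

theorem cross (hB : Bas o v Φ M) {O : Set Y} {y : Y} {a t₁ t₂ : ℝ} (ha : Φ y = Circle.exp a)
    (hσ : σ = 1 ∨ σ = -1) (h1 : σ * (a + ag Φ v y t₁) ≤ 0) (h2 : 0 ≤ σ * (a + ag Φ v y t₂))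
    (hO : ∀ t ∈ uIcc t₁ t₂, fl v t y ∈ O) : (y, a) ∈ Zs Φ v ({y | Φ y = 1} ∩ O) := by
  obtain ⟨t, ht, e⟩ := intermediate_value_uIcc (f := fun t => σ * (a + ag Φ v y t))
    (continuous_const.mul (continuous_const.add (continuous_ag' hB.smv hB.smΦ y))).continuousOn
    (mem_uIcc_of_le h1 h2)
  have e' : a + ag Φ v y t = 0 := by rcases hσ with rfl | rfl <;> linarith
  exact ⟨t, e', (phi_fl' hB.smv hB.smΦ ha t).trans (by rw [e', Circle.exp_zero]), hO t ht⟩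

/-- components of open parts of the middle surface are relatively open -/
theorem comp_open (hB : Bas o v Φ M) {O : Set Y} (hO : IsOpen O) (hM : ∀ y ∈ O, y ∉ M) {y y₀ : Y}
    (hy : y ∈ connectedComponentIn ({y | Φ y = 1} ∩ O) y₀) :
    ∀ᶠ z in 𝓝 y, Φ z = 1 → z ∈ connectedComponentIn ({y | Φ y = 1} ∩ O) y₀ := by
  have hv := hB.smv
  obtain ⟨h1, h2⟩ := connectedComponentIn_subset _ _ hy
  have a0 : ar 1 = 0 := by rw [← Circle.exp_zero, ar_exp (by simpa using pi_pos)]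
  obtain ⟨A, hA, B, hB', hAB⟩ := mem_nhds_prod_iff.1 ((hO.preimage (fl_cont hv)).mem_nhds
    (show ((0 : ℝ), y) ∈ _ by rwa [mem_preimage, Flo26.fl_zero hv]))
  obtain ⟨ε, hε, hA'⟩ := Metric.nhds_basis_closedBall.mem_iff.1 hA
  have h3 := ag_strict hv hB.smΦ hB.nn (y := y) (t := 0)
    (by rw [Flo26.fl_zero hv]; exact hB.pos _ (hM _ h2))
  have hn : ∀ᶠ z in 𝓝 y, (Φ z : ℂ) ≠ -1 := (isOpen_ne_fun (continuous_subtype_val.comp
    hB.smΦ.continuous) continuous_const).mem_nhds (show (Φ y : ℂ) ≠ -1 by rw [h1]; norm_num)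
  have c : ∀ z, (Φ z : ℂ) ≠ -1 → ContinuousAt (fun z => ar (Φ z)) z := fun z hz =>
    (continuousAt_ar hz).comp hB.smΦ.continuous.continuousAt
  have c' : ∀ t, ContinuousAt (fun z => ar (Φ z) + ag Φ v z t) y := fun t =>
    (c y hn.self_of_nhds).add (ag_cont hv hB.smΦ continuous_id continuous_const).continuousAt
  have e1 := (c' (-ε)).eventually_lt continuousAt_const
    (show _ < (0 : ℝ) by rw [h1, a0, zero_add, ← ag_zero y]; exact h3.1 _ (by linarith))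
  have e2 := continuousAt_const.eventually_lt (c' ε)
    (show (0 : ℝ) < _ by rw [h1, a0, zero_add, ← ag_zero y]; exact h3.2 _ hε)
  haveI := ChartedSpace.locallyConnectedSpace (EE 3) Y
  obtain ⟨N, hN, hc, hs⟩ := locallyConnectedSpace_iff_connected_subsets.1 inferInstance y _
    (((hn.and e1).and e2).and (Eventually.and hB' (hO.mem_nhds h2)))
  have hG : ∀ y ∈ {y | Φ y = 1} ∩ O, y ∉ M := fun y h => hM y h.2
  filter_upwards [hN] with z hz e
  refine zs_zero hB (fun y h => hG y (connectedComponentIn_subset _ _ h)) (hM _ (hs hz).2.2)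
    (spread hB hG (q := (y, 0)) ⟨(fun z => (z, ar (Φ z))) '' N, ?_,
      hc.image _ (continuousOn_id.prodMk fun z hz => (c z (hs hz).1.1.1).continuousWithinAt),
      ⟨z, hz, by simp only [e, a0]⟩, y, mem_of_mem_nhds hN, by simp only [show Φ y = 1 from h1, a0]⟩
      ⟨0, by rw [ag_zero, add_zero], by rwa [Flo26.fl_zero hv]⟩)
  rintro _ ⟨w, hw, rfl⟩
  refine cross hB (exp_ar _).symm (.inl rfl) (by linarith [(hs hw).1.1.2]) (by linarith [(hs hw).1.2])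
    fun t ht => hAB (mk_mem_prod (hA' ?_) (hs hw).2.1)
  rw [uIcc_of_le (by linarith)] at ht
  exact mem_closedBall_zero_iff.2 (abs_le.2 ht)

end Crest.Agent.X212.Hel40
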